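import Crest.Agent.R110.Quot

/-!
Row 110: closed right ideals, homomorphisms, cones and lifting along quotients.
-/

set_option autoImplicit false

namespace Crest.Agent.R110

universe u

/-- A closed right ideal. -/
structure RI (U : Type u) [CStarAlgebra U] where
  s : Set U
  zero : (0 : U) ∈ s
  add : ∀ {a b : U}, a ∈ s → b ∈ s → a + b ∈ s
  mul : ∀ {a : U} (r : U), a ∈ s → a * r ∈ s
  closed : IsClosed s

/-- A unital star homomorphism into an ordered C⋆-algebra of the same universe. -/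
structure Hom (U : Type u) [CStarAlgebra U] where
  Q : Type u
  [inst : CStarAlgebra Q]
  [po : PartialOrder Q]
  [sor : StarOrderedRing Q]
  π : U →⋆ₐ[ℂ] Q

attribute [instance] Hom.inst Hom.po Hom.sor

section noorder

variable {U : Type u} [CStarAlgebra U]

instance : CoeFun (Hom U) (fun φ => U → φ.Q) := ⟨fun φ => φ.π⟩

/-- Composition of homomorphisms. -/
def Hom.comp (φ : Hom U) (ψ : Hom φ.Q) : Hom U := ⟨ψ.Q, ψ.π.comp φ.π⟩

theorem Hom.comp_apply (φ : Hom U) (ψ : Hom φ.Q) (a : U) : (φ.comp ψ) a = ψ (φ a) := rfl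

theorem Hom.norm_le (φ : Hom U) (a : U) : ‖φ a‖ ≤ ‖a‖ := NonUnitalStarAlgHom.norm_apply_le φ.π a

theorem Hom.cont (φ : Hom U) : Continuous φ :=
  AddMonoidHomClass.continuous_of_bound φ.π 1 (by simpa using φ.norm_le)

theorem Hom.smul (φ : Hom U) (t : ℝ) (a : U) : φ (t • a) = t • φ a := by
  rw [← Complex.coe_smul, map_smul, Complex.coe_smul]

/-- `φ` kills the set `S`. -/
def Kills (φ : Hom U) (S : Set U) : Prop := ∀ w ∈ S, φ w = 0

theorem Kills.mono {φ : Hom U} {S T : Set U} (h : Kills φ T) (hS : S ⊆ T) : Kills φ S :=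
  fun w hw => h w (hS hw)

/-- `φ` is the quotient map by `I`. -/
structure IsQuot (φ : Hom U) (I : Set U) : Prop where
  surj : Function.Surjective φ
  ker : ∀ x, φ x = 0 ↔ x ∈ I
  approx : ∀ a ε, 0 < ε → ∃ j ∈ I, ‖a - j‖ < ‖φ a‖ + ε

theorem IsQuot.norm_le {φ : Hom U} {I : Set U} (h : IsQuot φ I) {ψ : Hom U} (hψ : Kills ψ I)
    (a : U) : ‖ψ a‖ ≤ ‖φ a‖ := by
  refine le_of_forall_pos_le_add fun ε hε => ?_
  obtain ⟨j, hj, h1⟩ := h.approx a ε hε
  have : ψ a = ψ (a - j) := by rw [map_sub, hψ j hj, sub_zero]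
  rw [this]
  exact (ψ.norm_le _).trans h1.le

namespace RI

variable (X : RI U)

theorem smul (c : ℝ) {a : U} (ha : a ∈ X.s) : c • a ∈ X.s := by
  simpa using X.mul (c • (1 : U)) ha

theorem sub {a b : U} (ha : a ∈ X.s) (hb : b ∈ X.s) : a - b ∈ X.s := by
  simpa [sub_eq_add_neg] using X.add ha (X.mul (-1) hb)

theorem mem_of_approx {z : U} (h : ∀ ε : ℝ, 0 < ε → ∃ v ∈ X.s, ‖z - v‖ ≤ ε) : z ∈ X.s := by
  rw [← X.closed.closure_eq, Metric.mem_closure_iff]
  intro ε hε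
  obtain ⟨v, hv, h1⟩ := h _ (half_pos hε)
  exact ⟨v, hv, by rw [dist_eq_norm]; linarith⟩

end RI

/-- The closed right ideal generated by one element. -/
def gen (y : U) : RI U where
  s := closure (Set.range fun r => y * r)
  zero := subset_closure ⟨0, by simp⟩
  add := fun ha hb => map_mem_closure₂ continuous_add ha hb (by
    rintro _ ⟨r, rfl⟩ _ ⟨r', rfl⟩
    exact ⟨r + r', by simp [mul_add]⟩)
  mul := fun r ha => map_mem_closure (f := fun a => a * r) (by fun_prop) ha (by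
    rintro _ ⟨r', rfl⟩
    exact ⟨r' * r, by simp [mul_assoc]⟩)
  closed := isClosed_closure

theorem mem_gen (y : U) : y ∈ (gen y).s := subset_closure ⟨1, by simp⟩

theorem gen_ind {y : U} {P : U → Prop} (hP : IsClosed {w | P w}) (h : ∀ r, P (y * r)) :
    ∀ w ∈ (gen y).s, P w := fun _ hw =>
  closure_minimal (by rintro _ ⟨r, rfl⟩; exact h r) hP hw

theorem gen_le {y : U} {X : RI U} (hy : y ∈ X.s) : (gen y).s ⊆ X.s :=
  gen_ind X.closed fun r => X.mul r hy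

theorem map_gen (φ : Hom U) {y w : U} (hw : w ∈ (gen y).s) : φ w ∈ (gen (φ y)).s :=
  gen_ind (P := fun w => φ w ∈ (gen (φ y)).s) ((gen (φ y)).closed.preimage φ.cont)
    (fun r => by rw [map_mul]; exact (gen _).mul _ (mem_gen _)) w hw

theorem kills_gen {φ : Hom U} {y : U} (hy : φ y = 0) : Kills φ (gen y).s :=
  gen_ind (P := fun w => φ w = 0) (isClosed_eq φ.cont continuous_const)
    fun r => by rw [map_mul, hy, zero_mul]

/-- Every element of `X` has properly infinite modulus. -/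
def PI (X : RI U) : Prop :=
  ∀ v ∈ X.s, ∀ ε : ℝ, 0 < ε → ∃ r s : U, ‖star r * (star v * v) * r - star v * v‖ < ε ∧
    ‖star s * (star v * v) * s - star v * v‖ < ε ∧ ‖star r * (star v * v) * s‖ < ε

theorem PI.mono {X Y : RI U} (h : PI Y) (hXY : X.s ⊆ Y.s) : PI X := fun v hv => h v (hXY hv)

/-- The ideal generated by `S` contains the part of `c` above the level `t`. -/
def Cov (S : Set U) (c : U) (t : ℝ) : Prop := ∀ φ : Hom U, Kills φ S → ‖φ c‖ ≤ t

theorem Cov.mono {S T : Set U} {c : U} {t t' : ℝ} (h : Cov S c t) (hS : S ⊆ T) (ht : t ≤ t') :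
    Cov T c t' := fun φ hφ => (h φ (hφ.mono hS)).trans ht

/-- The form `(v, w) ↦ v⋆ x w` is bounded by `β` on `X × Y`, in every quotient. -/
def Bd (x : U) (X Y : Set U) (β : ℝ) : Prop :=
  ∀ φ : Hom U, ∀ v ∈ X, ∀ w ∈ Y, ‖φ (star v * x * w)‖ ≤ β * ‖φ v‖ * ‖φ w‖

theorem Bd.symm {x : U} {X Y : Set U} {β : ℝ} (h : Bd x X Y β) : Bd (star x) Y X β := by
  intro φ w hw v hv
  have := h φ v hv w hw
  rw [← norm_star, ← map_star] at this
  simp only [star_mul, star_star, ← mul_assoc] at this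
  linarith [mul_right_comm β ‖φ v‖ ‖φ w‖]

theorem Bd.mono {x : U} {X Y X' Y' : Set U} {β β' : ℝ} (h : Bd x X Y β) (hX : X' ⊆ X)
    (hY : Y' ⊆ Y) (hβ : β ≤ β') : Bd x X' Y' β' := fun φ v hv w hw =>
  (h φ v (hX hv) w (hY hw)).trans (by gcongr)

theorem bd_norm (x : U) (X Y : Set U) : Bd x X Y ‖x‖ := by
  intro φ v _ w _
  rw [map_mul, map_mul, map_star]
  calc ‖star (φ v) * φ x * φ w‖ ≤ ‖star (φ v)‖ * ‖φ x‖ * ‖φ w‖ := norm_mul₃_le
    _ ≤ ‖φ v‖ * ‖x‖ * ‖φ w‖ := by rw [norm_star]; gcongr; exact φ.norm_le x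
    _ = _ := by ring

end noorder

section order

variable {U : Type u} [CStarAlgebra U] [PartialOrder U] [StarOrderedRing U]

/-- The identity homomorphism. -/
def Hom.id (U : Type u) [CStarAlgebra U] [PartialOrder U] [StarOrderedRing U] : Hom U :=
  ⟨U, StarAlgHom.id ℂ U⟩

theorem Hom.mono (φ : Hom U) {a b : U} (h : a ≤ b) : φ a ≤ φ b := OrderHomClass.mono φ.π h

theorem Hom.nonneg (φ : Hom U) {a : U} (h : 0 ≤ a) : 0 ≤ φ a := by simpa using φ.mono h

theorem exists_hom (S : Set U) (h0 : (0 : U) ∈ S) (hadd : ∀ a b, a ∈ S → b ∈ S → a + b ∈ S)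
    (hl : ∀ r a, a ∈ S → r * a ∈ S) (hr : ∀ r a, a ∈ S → a * r ∈ S) (hc : IsClosed S) :
    ∃ φ : Hom U, IsQuot φ S := by
  let I : Ideal U :=
    { carrier := S
      add_mem' := fun ha hb => hadd _ _ ha hb
      zero_mem' := h0
      smul_mem' := fun r a ha => hl r a ha }
  have : I.IsTwoSided := ⟨fun b ha => hr b _ ha⟩
  obtain ⟨Q, _, π, h1, h2, h3⟩ := exists_quot I hc
  let := CStarAlgebra.spectralOrder Q
  have := CStarAlgebra.spectralOrderedRing Q
  exact ⟨⟨Q, π⟩, h1, h2, h3⟩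

theorem Cov.nonneg {S : Set U} {c : U} {t : ℝ} (h : Cov S c t) : 0 ≤ t := by
  obtain ⟨φ, hφ⟩ := exists_hom (Set.univ : Set U) trivial (fun _ _ _ _ => trivial)
    (fun _ _ _ => trivial) (fun _ _ _ => trivial) isClosed_univ
  exact (norm_nonneg _).trans (h φ fun w _ => (hφ.ker w).2 trivial)

/-- The quotient by the closed ideal generated by a set. -/
theorem exists_quot_gen (S : Set U) :
    ∃ (φ : Hom U) (I : Set U), IsQuot φ I ∧ Kills φ S ∧ ∀ ψ : Hom U, Kills ψ S → Kills ψ I := by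
  obtain ⟨φ, hφ⟩ := exists_hom {z : U | ∀ ψ : Hom U, Kills ψ S → ψ z = 0}
    (fun ψ _ => map_zero _) (fun a b ha hb ψ hψ => by rw [map_add, ha ψ hψ, hb ψ hψ, add_zero])
    (fun r a ha ψ hψ => by rw [map_mul, ha ψ hψ, mul_zero])
    (fun r a ha ψ hψ => by rw [map_mul, ha ψ hψ, zero_mul]) (by
      rw [← isSeqClosed_iff_isClosed]
      intro x p hx hp ψ hψ
      have h1 := (ψ.cont.tendsto p).comp hp
      have h2 : (ψ ∘ x) = fun _ => 0 := funext fun n => hx n ψ hψ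
      rw [h2] at h1
      exact tendsto_nhds_unique h1 tendsto_const_nhds)
  exact ⟨φ, _, hφ, fun w hw => (hφ.ker w).2 fun ψ hψ => hψ w hw, fun ψ hψ w hw => hw ψ hψ⟩

theorem mem_gen_of_le {z h : U} (hh : 0 ≤ h) {l : ℝ} (hl : 0 ≤ l) (hz : z * star z ≤ l • h) :
    z ∈ (gen h).s :=
  (gen h).mem_of_approx fun ε hε => by
    obtain ⟨r, hr⟩ := approx_of_le hh hl hz hε
    exact ⟨_, (gen h).mul r (mem_gen h), hr⟩

theorem mem_gen_of_le' {z k : U} {l : ℝ} (hl : 0 ≤ l) (hz : z * star z ≤ l • (k * star k)) :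
    z ∈ (gen k).s :=
  gen_le ((gen k).mul _ (mem_gen k)) (mem_gen_of_le (mul_star_self_nonneg k) hl hz)

omit [PartialOrder U] [StarOrderedRing U] in
theorem eq_zero_of_star_mul {a : U} (h : star a * a = 0) : a = 0 :=
  (CStarRing.star_mul_self_eq_zero_iff a).1 h

theorem norm_le_of_le {a b : U} {θ : ℝ} (hθ : 0 ≤ θ) (h : star a * a ≤ θ ^ 2 • (star b * b)) :
    ‖a‖ ≤ θ * ‖b‖ := by
  refine norm_le_of_sq (by positivity) ?_
  refine (CStarAlgebra.norm_le_norm_of_nonneg_of_le (star_mul_self_nonneg a) h).trans ?_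
  rw [norm_smul, CStarRing.norm_star_mul_self, Real.norm_of_nonneg (by positivity)]
  nlinarith

theorem le_norm_of_le {a b : U} {θ : ℝ} (h : θ ^ 2 • (star b * b) ≤ star a * a) :
    θ * ‖b‖ ≤ ‖a‖ := by
  have h1 := CStarAlgebra.norm_le_norm_of_nonneg_of_le
    (smul_nonneg (by positivity) (star_mul_self_nonneg b)) h
  rw [norm_smul, CStarRing.norm_star_mul_self, CStarRing.norm_star_mul_self,
    Real.norm_of_nonneg (by positivity)] at h1
  exact abs_le_of_sq_le_sq' (by nlinarith) (norm_nonneg a) |>.2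

omit [PartialOrder U] [StarOrderedRing U] in
theorem pos_mul_self {G : U} (hG : IsSelfAdjoint G) : G⁺ * G = G⁺ * G⁺ := by
  conv_lhs => rhs; rw [← CFC.posPart_sub_negPart G hG]
  rw [mul_sub, CFC.posPart_mul_negPart, sub_zero]

theorem star_pos (G : U) : star G⁺ = G⁺ := (CFC.posPart_nonneg G).isSelfAdjoint

theorem star_neg' (G : U) : star G⁻ = G⁻ := (CFC.negPart_nonneg G).isSelfAdjoint

theorem nonpos_of_pos_eq_zero (φ : Hom U) {G : U} (hG : IsSelfAdjoint G) (h : φ G⁺ = 0) :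
    φ G ≤ 0 := by
  simpa [h] using φ.mono (CFC.le_posPart hG)

/-- The cone of `G` inside the right ideal generated by `y`. -/
theorem exists_cone (y : U) {G : U} (hG : IsSelfAdjoint G) {l : ℝ}
    (hl : G ≤ l • (star y * y)) : ∃ C : RI U, C.s ⊆ (gen y).s ∧
      (∀ P : U → Prop, IsClosed {w | P w} → (∀ ρ, 0 ≤ star ρ * G * ρ → P (y * ρ)) →
        ∀ w ∈ C.s, P w) ∧ ∀ φ : Hom U, Kills φ C.s → φ G ≤ 0 := by
  have h3 : star G⁺ * G * G⁺ = G⁺ ^ 3 := by
    rw [star_pos, pos_mul_self hG]; noncomm_ring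
  have h0 : 0 ≤ star G⁺ * G * G⁺ := h3 ▸ CStarAlgebra.pow_nonneg (CFC.posPart_nonneg G) 3
  refine ⟨gen (y * G⁺), gen_le ((gen y).mul _ (mem_gen y)), fun P hP h => gen_ind hP fun r => ?_,
    fun φ hφ => ?_⟩
  · rw [mul_assoc]
    refine h _ ?_
    have : star (G⁺ * r) * G * (G⁺ * r) = star r * (star G⁺ * G * G⁺) * r := by
      rw [star_mul]; noncomm_ring
    rw [this]
    exact star_left_conjugate_nonneg h0 r
  · have h1 : φ (y * G⁺) = 0 := hφ _ (mem_gen _)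
    have h2 := φ.mono (star_left_conjugate_le_conjugate hl G⁺)
    have h4 : star G⁺ * (l • (star y * y)) * G⁺ = l • (star G⁺ * star y * (y * G⁺)) := by
      rw [mul_smul_comm, smul_mul_assoc]; congr 1; noncomm_ring
    rw [h4, φ.smul, map_mul _ (star G⁺ * star y), h1, mul_zero, smul_zero, h3] at h2
    have h5 : φ (G⁺ ^ 3) = 0 :=
      le_antisymm h2 (φ.nonneg (CStarAlgebra.pow_nonneg (CFC.posPart_nonneg G) 3))
    refine nonpos_of_pos_eq_zero φ hG ?_
    have h6 : star (φ G⁺) = φ G⁺ := by rw [← map_star, star_pos]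
    refine eq_zero_of_star_mul (eq_zero_of_star_mul ?_)
    rw [star_mul, star_star, h6]
    have : φ G⁺ * φ G⁺ * (φ G⁺ * φ G⁺) = φ (G⁺ ^ 3) * φ G⁺ := by
      rw [map_pow]; noncomm_ring
    rw [this, h5, zero_mul]

/-- The part of `y U` on which `z` is small. -/
theorem coneB (y z : U) {θ : ℝ} (hθ : 0 ≤ θ) : ∃ C : RI U, C.s ⊆ (gen y).s ∧
    (∀ φ : Hom U, ∀ w ∈ C.s, ‖φ (z * w)‖ ≤ θ * ‖φ w‖) ∧
    ∀ φ : Hom U, Kills φ C.s → ∀ w ∈ (gen (φ y)).s, θ * ‖w‖ ≤ ‖φ z * w‖ := by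
  obtain ⟨C, h1, h2, h3⟩ := exists_cone y
    (G := θ ^ 2 • (star y * y) - star (z * y) * (z * y)) (l := θ ^ 2)
    ((IsSelfAdjoint.all _ |>.smul (.star_mul_self y)).sub (.star_mul_self _))
    (sub_le_self _ (star_mul_self_nonneg _))
  refine ⟨C, h1, fun φ => h2 _ (isClosed_le (φ.cont.comp (by fun_prop)).norm
    (continuous_const.mul φ.cont.norm)) fun ρ hρ => ?_, fun φ hφ => ?_⟩
  · refine norm_le_of_le hθ ?_
    rw [← map_star, ← map_mul, ← map_star, ← map_mul, ← φ.smul]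
    refine φ.mono (sub_nonneg.1 ?_)
    convert hρ using 1
    simp only [star_mul, mul_sub, sub_mul, mul_smul_comm, smul_mul_assoc, mul_assoc]
  · refine gen_ind (isClosed_le (by fun_prop) (by fun_prop)) fun r => ?_
    refine le_norm_of_le ?_
    have h4 := star_left_conjugate_le_conjugate (h3 φ hφ) r
    rw [mul_zero, zero_mul] at h4
    refine sub_nonpos.1 ?_
    convert h4 using 1
    simp only [map_sub, φ.smul, map_mul, map_star, star_mul, mul_sub, sub_mul, mul_smul_comm,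
      smul_mul_assoc, mul_assoc]

/-- The part of `v U` on which `v` is bounded below. -/
theorem coneA (v : U) {μ : ℝ} (hμ : 0 ≤ μ) : ∃ C : RI U, C.s ⊆ (gen v).s ∧
    (∀ φ : Hom U, ∀ b : U, ∀ a ∈ C.s, μ * ‖φ (star a * b)‖ ≤ ‖φ a‖ * ‖φ (star v * b)‖) ∧
    ∀ φ : Hom U, Kills φ C.s → ‖φ v‖ ≤ μ := by
  obtain ⟨C, h1, h2, h3⟩ := exists_cone v
    (G := star v * v - μ ^ 2 • (1 : U)) (l := 1)
    ((IsSelfAdjoint.star_mul_self v).sub (IsSelfAdjoint.all _ |>.smul (.one U)))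
    (by rw [one_smul]; exact sub_le_self _ (smul_nonneg (by positivity) zero_le_one))
  refine ⟨C, h1, fun φ b => h2 _ (isClosed_le
    (continuous_const.mul (φ.cont.comp (by fun_prop)).norm)
    (φ.cont.norm.mul continuous_const)) fun ρ hρ => ?_, fun φ hφ => ?_⟩
  · have h4 : μ * ‖φ ρ‖ ≤ ‖φ (v * ρ)‖ := by
      refine le_norm_of_le ?_
      rw [← map_star, ← map_mul, ← map_star, ← map_mul, ← φ.smul]
      refine φ.mono (sub_nonneg.1 ?_)
      convert hρ using 1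
      simp only [star_mul, mul_sub, sub_mul, mul_smul_comm, smul_mul_assoc, mul_assoc, one_mul]
    have h5 : ‖φ (star (v * ρ) * b)‖ ≤ ‖φ ρ‖ * ‖φ (star v * b)‖ := by
      rw [star_mul, mul_assoc, map_mul, map_star]
      exact (norm_mul_le _ _).trans (by rw [norm_star])
    calc μ * ‖φ (star (v * ρ) * b)‖ ≤ μ * (‖φ ρ‖ * ‖φ (star v * b)‖) := by gcongr
      _ = μ * ‖φ ρ‖ * ‖φ (star v * b)‖ := by ring
      _ ≤ _ := by gcongr
  · have h4 := h3 φ hφ
    rw [map_sub, sub_nonpos, map_mul, map_star, φ.smul, map_one] at h4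
    refine norm_le_of_sq hμ ?_
    rw [CStarAlgebra.norm_le_iff_le_algebraMap _ (by positivity) (star_mul_self_nonneg _),
      Algebra.algebraMap_eq_smul_one]
    exact h4

/-- From one element `v` and a test element `y` to a pair of right ideals. -/
theorem test (x v y : U) {θ μ : ℝ} (hθ : 0 ≤ θ) (hμ : 0 < μ) :
    ∃ X' Y' : RI U, X'.s ⊆ (gen v).s ∧ Y'.s ⊆ (gen y).s ∧ Bd x X'.s Y'.s (θ / μ) ∧
      (∀ φ : Hom U, Kills φ X'.s → ‖φ v‖ ≤ μ) ∧
      ∀ φ : Hom U, Kills φ Y'.s → ∀ w ∈ (gen y).s, θ * ‖φ w‖ ≤ ‖φ (star v * x * w)‖ := by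
  obtain ⟨X', h1, h2, h3⟩ := coneA v hμ.le
  obtain ⟨Y', h4, h5, h6⟩ := coneB y (star v * x) hθ
  refine ⟨X', Y', h1, h4, fun φ a ha w hw => ?_, h3, fun φ hφ w hw => ?_⟩
  · have h7 := h2 φ (x * w) a ha
    have h8 := h5 φ w hw
    rw [← mul_assoc, ← mul_assoc] at h7
    rw [div_mul_eq_mul_div, div_mul_eq_mul_div, le_div_iff₀ hμ]
    calc ‖φ (star a * x * w)‖ * μ ≤ ‖φ a‖ * ‖φ (star v * x * w)‖ := by linarith
      _ ≤ ‖φ a‖ * (θ * ‖φ w‖) := by gcongr
      _ = _ := by ring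
  · rw [map_mul]
    exact h6 φ hφ _ (map_gen φ hw)

theorem cfc_map (φ : Hom U) {c : U} (hc : 0 ≤ c) {f : ℝ → ℝ} (hf : Continuous f) :
    φ (cfc f c) = cfc f (φ c) :=
  StarAlgHomClass.map_cfc (S := ℂ) φ.π f c hf.continuousOn φ.cont hc.isSelfAdjoint
    (φ.nonneg hc).isSelfAdjoint

theorem cfc_kill (φ : Hom U) {c : U} (hc : 0 ≤ c) {f : ℝ → ℝ} (hf : Continuous f) {t : ℝ}
    (h0 : ∀ x, x ≤ t → f x = 0) (h : ‖φ c‖ ≤ t) : φ (cfc f c) = 0 := by
  rw [cfc_map φ hc hf, ← norm_le_zero_iff]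
  refine norm_cfc_le le_rfl fun x hx => ?_
  rcases subsingleton_or_nontrivial φ.Q with hs | hs
  · simp [spectrum.of_subsingleton] at hx
  · rw [h0 x ((le_abs_self x).trans ((spectrum.norm_le_norm_of_mem hx).trans h)), norm_zero]

theorem cfc_lower (φ : Hom U) {c : U} (hc : 0 ≤ c) {f : ℝ → ℝ} (hf : Continuous f)
    (h : 0 < ‖φ c‖) : |f ‖φ c‖| ≤ ‖φ (cfc f c)‖ := by
  rcases subsingleton_or_nontrivial φ.Q with hs | hs
  · simp [Subsingleton.elim (φ c) 0] at h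
  · rw [cfc_map φ hc hf]
    exact norm_apply_le_norm_cfc f (φ c) (CStarAlgebra.norm_mem_spectrum_of_nonneg (φ.nonneg hc))
      hf.continuousOn (φ.nonneg hc).isSelfAdjoint

/-- The image of a closed right ideal under a quotient map. -/
theorem exists_image {φ : Hom U} {I : Set U} (hφ : IsQuot φ I) (X : RI U) :
    ∃ X' : RI φ.Q, X'.s = φ '' X.s := by
  refine ⟨⟨φ '' X.s, ⟨0, X.zero, map_zero _⟩, ?_, ?_, ?_⟩, rfl⟩
  · rintro _ _ ⟨a, ha, rfl⟩ ⟨b, hb, rfl⟩
    exact ⟨a + b, X.add ha hb, map_add _ _ _⟩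
  · rintro _ r ⟨a, ha, rfl⟩
    obtain ⟨r, rfl⟩ := hφ.surj r
    exact ⟨a * r, X.mul r ha, map_mul _ _ _⟩
  let G : AddSubgroup U :=
    { carrier := X.s
      add_mem' := X.add
      zero_mem' := X.zero
      neg_mem' := fun ha => by simpa using X.mul (-1) ha }
  have : CompleteSpace G := X.closed.completeSpace_coe
  let f : NormedAddGroupHom G φ.Q :=
    { toFun := fun g => φ g
      map_add' := fun a b => map_add φ.π _ _
      bound' := ⟨1, fun g => by simpa using φ.norm_le g⟩ }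
  have h1 : f.SurjectiveOnWith f.range 3 := by
    rintro _ ⟨⟨v, hv⟩, rfl⟩
    change ∃ g : G, φ g = φ v ∧ ‖(g : U)‖ ≤ 3 * ‖φ v‖
    rcases (norm_nonneg (φ v)).eq_or_lt with h0 | h0
    · exact ⟨0, by simpa using (norm_eq_zero.1 h0.symm).symm, by simp⟩
    obtain ⟨j, hj, h2⟩ := hφ.approx v _ h0
    obtain ⟨e, r, he, he1, -, h3, h4⟩ := exists_e (star_mul_self_nonneg j) (κ := ‖φ v‖ ^ 2)
      (by positivity)
    refine ⟨⟨v * e, X.mul e hv⟩, ?_, ?_⟩
    · change φ (v * e) = φ v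
      rw [h3]
      simp [mul_sub, (hφ.ker j).2 hj]
    · have h6 : ‖j * e‖ ≤ ‖φ v‖ := by
        refine norm_le_of_sq h0.le ?_
        rw [star_mul, he]
        have : e * star j * (j * e) = e * (star j * j) * e := by noncomm_ring
        rwa [this]
      have h7 : v * e = (v - j) * e + j * e := by noncomm_ring
      have h8 : ‖(v - j) * e‖ ≤ ‖v - j‖ :=
        (norm_mul_le _ _).trans (by nlinarith [norm_nonneg (v - j)])
      change ‖v * e‖ ≤ _
      rw [h7]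
      linarith [norm_add_le ((v - j) * e) (j * e)]
  have h2 := controlled_closure_of_complete (by norm_num) one_pos h1
  refine isClosed_of_closure_subset fun y hy => ?_
  obtain ⟨g, hg, -⟩ := h2 y (by
    refine closure_mono ?_ hy
    rintro _ ⟨a, ha, rfl⟩
    exact ⟨⟨a, ha⟩, rfl⟩)
  exact ⟨g, g.2, hg⟩

/-- Lifting a smaller right ideal along a quotient map. -/
theorem lift {φ : Hom U} {I : Set U} (hφ : IsQuot φ I) (X : RI U) (X' : RI φ.Q)
    (hX' : X'.s ⊆ φ '' X.s) : ∃ X₁ : RI U, X₁.s ⊆ X.s ∧ (∀ v ∈ X₁.s, φ v ∈ X'.s) ∧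
      ∀ (c : U) (t : ℝ), 0 ≤ c → Cov X.s c t → Cov X'.s (φ c) t → Cov X₁.s c t := by
  refine ⟨⟨{v | v ∈ X.s ∧ φ v ∈ X'.s}, ⟨X.zero, by simpa using X'.zero⟩,
    fun ha hb => ⟨X.add ha.1 hb.1, by simpa using X'.add ha.2 hb.2⟩,
    fun r ha => ⟨X.mul r ha.1, by simpa using X'.mul _ ha.2⟩,
    X.closed.inter (X'.closed.preimage φ.cont)⟩, fun v hv => hv.1, fun v hv => hv.2, ?_⟩
  intro c t hc h1 h2 ψ hψ
  have ht := h1.nonneg
  obtain ⟨f, hf, hfc⟩ : ∃ f : ℝ → ℝ, (∀ x, f x = max (x - t) 0) ∧ Continuous f :=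
    ⟨_, fun _ => rfl, by fun_prop⟩
  have hf0 : ∀ x, x ≤ t → f x = 0 := fun x hx => by rw [hf, max_eq_right (by linarith)]
  set e := cfc f c with he
  have hes : star e = e := (cfc_predicate f c : IsSelfAdjoint _)
  obtain ⟨χ, hχ⟩ := exists_hom (closure (φ '' {z | ψ z = 0}))
    (subset_closure ⟨0, map_zero ψ.π, map_zero _⟩)
    (fun a b ha hb => map_mem_closure₂ continuous_add ha hb (by
      rintro _ ⟨a, ha, rfl⟩ _ ⟨b, hb, rfl⟩
      exact ⟨a + b, by simp [show ψ a = 0 from ha, show ψ b = 0 from hb], map_add _ _ _⟩))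
    (fun r a ha => map_mem_closure (f := fun a => r * a) (by fun_prop) ha (by
      rintro _ ⟨a, ha, rfl⟩
      obtain ⟨r, rfl⟩ := hφ.surj r
      exact ⟨r * a, by simp [show ψ a = 0 from ha], map_mul _ _ _⟩))
    (fun r a ha => map_mem_closure (f := fun a => a * r) (by fun_prop) ha (by
      rintro _ ⟨a, ha, rfl⟩
      obtain ⟨r, rfl⟩ := hφ.surj r
      exact ⟨a * r, by simp [show ψ a = 0 from ha], map_mul _ _ _⟩)) isClosed_closure
  have h3 : φ e ∈ closure (φ '' {z | ψ z = 0}) := by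
    rw [← hχ.ker]
    refine cfc_kill (φ.comp χ) hc hfc hf0 (h2 χ fun w hw => (hχ.ker w).2 (subset_closure ?_))
    obtain ⟨v, hv, rfl⟩ := hX' hw
    exact ⟨v, hψ v ⟨hv, hw⟩, rfl⟩
  obtain ⟨ξ, hξ⟩ := exists_hom {z : U | ∀ j ∈ I, ψ (z * j) = 0} (fun j _ => by simp)
    (fun a b ha hb j hj => by rw [add_mul, map_add, ha j hj, hb j hj, add_zero])
    (fun r a ha j hj => by rw [mul_assoc, map_mul, ha j hj, mul_zero])
    (fun r a ha j hj => by
      rw [mul_assoc]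
      exact ha _ ((hφ.ker _).1 (by rw [map_mul, (hφ.ker j).2 hj, mul_zero])))
    (by
      rw [Set.ofPred_forall]
      refine isClosed_iInter fun j => ?_
      rw [Set.ofPred_forall]
      exact isClosed_iInter fun _ => isClosed_eq (ψ.cont.comp (by fun_prop)) continuous_const)
  have h4 : ∀ j ∈ I, ψ (e * j) = 0 := by
    refine (hξ.ker e).1 (cfc_kill ξ hc hfc hf0 (h1 ξ fun w hw => (hξ.ker w).2 fun j hj => ?_))
    refine hψ _ ⟨X.mul j hw, ?_⟩
    rw [map_mul, (hφ.ker j).2 hj, mul_zero]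
    exact X'.zero
  have h5 : ψ e = 0 := by
    refine eq_zero_of_star_mul ?_
    rw [← map_star, hes, ← map_mul, ← norm_le_zero_iff]
    refine le_of_forall_pos_le_add fun ε hε => ?_
    have hδ : 0 < ε / (2 * (‖e‖ + 1)) := by positivity
    obtain ⟨_, ⟨i, hi, rfl⟩, h6⟩ := Metric.mem_closure_iff.1 h3 _ hδ
    obtain ⟨j, hj, h7⟩ := hφ.approx (e - i) _ hδ
    rw [dist_eq_norm, ← map_sub] at h6
    have h8 : ψ (e * e) = ψ (e * (e - i - j)) := by
      rw [mul_sub, mul_sub, map_sub, map_sub, h4 j hj, map_mul _ e i, show ψ i = 0 from hi]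
      simp
    rw [h8, zero_add]
    calc ‖ψ (e * (e - i - j))‖ ≤ ‖e‖ * ‖e - i - j‖ := (ψ.norm_le _).trans (norm_mul_le _ _)
      _ ≤ (‖e‖ + 1) * (2 * (ε / (2 * (‖e‖ + 1)))) := by gcongr <;> linarith
      _ = ε := by field_simp
  by_contra hlt
  rw [not_le] at hlt
  have h6 := cfc_lower ψ hc hfc (ht.trans_lt hlt)
  rw [← he, h5, norm_zero, hf, max_eq_left (by linarith), abs_of_pos (by linarith)] at h6
  linarith

end order

end Crest.Agent.R110
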