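import Crest.Agent.R110.Defs

/-!
Row 110: consequences of proper infiniteness: comparison, normalised elements, halving and
projections.
-/

set_option autoImplicit false

namespace Crest.Agent.R110

universe u

variable {U : Type u} [CStarAlgebra U] [PartialOrder U] [StarOrderedRing U]

/-- Limits of squares `v⋆ v` of elements of `X`. -/
def SQ (X : RI U) : Set U := closure {c | ∃ v ∈ X.s, star v * v = c}

variable {X : RI U}

omit [PartialOrder U] [StarOrderedRing U] in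
theorem SQ.conj {c : U} (hc : c ∈ SQ X) (a : U) : star a * c * a ∈ SQ X :=
  map_mem_closure (f := fun c => star a * c * a) (by fun_prop) hc (by
    rintro _ ⟨v, hv, rfl⟩
    exact ⟨v * a, X.mul a hv, by rw [star_mul]; noncomm_ring⟩)

theorem SQ.nonneg {c : U} (hc : c ∈ SQ X) : 0 ≤ c :=
  closure_minimal (t := {c : U | 0 ≤ c}) (by rintro _ ⟨v, -, rfl⟩; exact star_mul_self_nonneg v)
    CStarAlgebra.isClosed_nonneg hc

theorem exists_sqrt {c : U} (hc : 0 ≤ c) : ∃ k : U, star k = k ∧ k * k = c :=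
  ⟨CFC.sqrt c, (CFC.sqrt_nonneg c).isSelfAdjoint, CFC.sqrt_mul_sqrt_self c hc⟩

theorem SQ.of_le {c c' : U} (hc : c ∈ SQ X) (h0 : 0 ≤ c') {l : ℝ} (hl : 0 ≤ l)
    (h : c' ≤ l • c) : c' ∈ SQ X := by
  obtain ⟨k, hk, hkk⟩ := exists_sqrt (SQ.nonneg hc)
  obtain ⟨m, hm, hmm⟩ := exists_sqrt h0
  have h1 : m ∈ (gen k).s := mem_gen_of_le' hl (by rwa [hk, hm, hkk, hmm])
  have h2 := gen_ind (P := fun w => star w * w ∈ SQ X)
    (isClosed_closure.preimage (by fun_prop)) (fun r => by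
      have : star (k * r) * (k * r) = star r * c * r := by
        rw [star_mul, hk, ← hkk]; noncomm_ring
      rw [this]
      exact SQ.conj hc r) m h1
  rwa [hm, hmm] at h2

theorem SQ.add (hX : PI X) {c d : U} (hc : c ∈ SQ X) (hd : d ∈ SQ X) : c + d ∈ SQ X := by
  have hcl : SQ X = closure (SQ X) := isClosed_closure.closure_eq.symm
  rw [hcl]
  refine map_mem_closure₂ continuous_add hc hd ?_
  rintro _ ⟨u₁, h1, rfl⟩ _ ⟨u₂, h2, rfl⟩
  have hh : 0 ≤ u₁ * star u₁ + u₂ * star u₂ :=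
    add_nonneg (mul_star_self_nonneg _) (mul_star_self_nonneg _)
  obtain ⟨k, hk, hkk⟩ := exists_sqrt hh
  have hkX : k ∈ X.s := gen_le (X.add (X.mul _ h1) (X.mul _ h2))
    (mem_gen_of_le hh zero_le_one (by rw [hk, hkk, one_smul]))
  have h3 : u₁ ∈ (gen k).s := mem_gen_of_le' zero_le_one (by
    rw [hk, hkk, one_smul]; exact le_add_of_nonneg_right (mul_star_self_nonneg _))
  have h4 : u₂ ∈ (gen k).s := mem_gen_of_le' zero_le_one (by
    rw [hk, hkk, one_smul]; exact le_add_of_nonneg_left (mul_star_self_nonneg _))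
  refine gen_ind (P := fun w => star w * w + star u₂ * u₂ ∈ SQ X)
    (isClosed_closure.preimage (by fun_prop)) (fun ρ₁ => ?_) u₁ h3
  refine gen_ind (P := fun w => star (k * ρ₁) * (k * ρ₁) + star w * w ∈ SQ X)
    (isClosed_closure.preimage (by fun_prop)) (fun ρ₂ => ?_) u₂ h4
  set h := star k * k with hdef
  have h5 : ((h, h, 0) : U × U × U) ∈ closure {q | ∃ r s : U,
      q = (star r * h * r, star s * h * s, star r * h * s)} := by
    rw [Metric.mem_closure_iff]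
    intro ε hε
    obtain ⟨r, s, e1, e2, e3⟩ := hX k hkX ε hε
    refine ⟨_, ⟨r, s, rfl⟩, ?_⟩
    simp only [Prod.dist_eq, max_lt_iff]
    rw [dist_comm h, dist_comm h, dist_comm 0, dist_eq_norm, dist_eq_norm, dist_zero_right]
    exact ⟨e1, e2, e3⟩
  have h6 := map_mem_closure (t := {c | ∃ v ∈ X.s, star v * v = c})
    (f := fun q : U × U × U => star ρ₁ * q.1 * ρ₁ + star ρ₂ * q.2.1 * ρ₂ +
      star ρ₁ * q.2.2 * ρ₂ + star ρ₂ * star q.2.2 * ρ₁) (by fun_prop) h5 (by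
      rintro _ ⟨r, s, rfl⟩
      refine ⟨k * (r * ρ₁ + s * ρ₂), X.mul _ hkX, ?_⟩
      simp only [hdef, star_mul, star_add, star_star]
      noncomm_ring)
  have h7 : star (k * ρ₁) * (k * ρ₁) + star (k * ρ₂) * (k * ρ₂) =
      star ρ₁ * h * ρ₁ + star ρ₂ * h * ρ₂ + star ρ₁ * 0 * ρ₂ + star ρ₂ * star 0 * ρ₁ := by
    simp only [hdef, star_mul, star_zero]
    noncomm_ring
  rw [h7]
  exact h6

/-- Comparison: the ideal generated by `X` consists of elements dominated by `X`. -/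
theorem mem_SQ (hX : PI X) {z : U} (hz : ∀ φ : Hom U, Kills φ X.s → φ z = 0) :
    star z * z ∈ SQ X := by
  obtain ⟨φ, hφ⟩ := exists_hom {z : U | star z * z ∈ SQ X}
    (subset_closure ⟨0, X.zero, rfl⟩)
    (fun a b ha hb => SQ.of_le (SQ.add hX ha hb) (star_mul_self_nonneg _) zero_le_two (by
      have h1 := star_mul_self_nonneg (a - b)
      rw [← sub_nonneg]
      convert h1 using 1
      rw [two_smul, star_add, star_sub]
      noncomm_ring))
    (fun r a ha => SQ.of_le ha (star_mul_self_nonneg _) (norm_nonneg (star r * r)) (by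
      have : star (r * a) * (r * a) = star a * (star r * r) * a := by
        rw [star_mul]; noncomm_ring
      rw [this]
      exact CStarAlgebra.star_left_conjugate_le_norm_smul (.star_mul_self r)))
    (fun r a ha => by
      have : star (a * r) * (a * r) = star r * (star a * a) * r := by
        rw [star_mul]; noncomm_ring
      rw [Set.mem_ofPred_eq, this]
      exact SQ.conj ha r)
    (isClosed_closure.preimage (by fun_prop))
  exact (hφ.ker z).1 (hz φ fun w hw => (hφ.ker w).2 (subset_closure ⟨w, hw, rfl⟩))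

theorem approx_sq (hX : PI X) {z : U} (hz : ∀ φ : Hom U, Kills φ X.s → φ z = 0) {κ : ℝ}
    (hκ : 0 < κ) : ∃ v ∈ X.s, ‖star v * v - star z * z‖ < κ := by
  obtain ⟨_, ⟨v, hv, rfl⟩, h⟩ := Metric.mem_closure_iff.1 (mem_SQ hX hz) κ hκ
  exact ⟨v, hv, by rwa [dist_comm, dist_eq_norm] at h⟩

theorem exists_bump {t t' : ℝ} (h : t < t') : ∃ f : ℝ → ℝ, Continuous f ∧ (∀ x, 0 ≤ f x) ∧
    (∀ x, f x ≤ 1) ∧ (∀ x, x ≤ t → f x = 0) ∧ ∀ x, t' ≤ x → f x = 1 := by
  have h0 : 0 < t' - t := by linarith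
  refine ⟨fun x => max 0 (min 1 ((x - t) / (t' - t))), by fun_prop, fun x => le_max_left _ _,
    fun x => max_le zero_le_one (min_le_left _ _), fun x hx => max_eq_left ?_, fun x hx => ?_⟩
  · exact (min_le_right _ _).trans (div_nonpos_of_nonpos_of_nonneg (by linarith) h0.le)
  · have : 1 ≤ (x - t) / (t' - t) := by rw [le_div_iff₀ h0]; linarith
    simp only [min_eq_left this, max_eq_right zero_le_one]

theorem exists_sigma {c : U} (hc : 0 ≤ c) {t t' : ℝ} (ht : 0 ≤ t) (h : t < t') :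
    ∃ σ : U, star σ = σ ∧ ‖σ‖ ≤ 1 ∧ (∀ φ : Hom U, ‖φ c‖ ≤ t → φ σ = 0) ∧
      ∀ φ : Hom U, ‖φ (σ ^ 4)‖ < 1 → ‖φ c‖ ≤ t' := by
  obtain ⟨f, hf, f0, f1, f2, f3⟩ := exists_bump h
  refine ⟨cfc f c, (cfc_predicate f c : IsSelfAdjoint _), norm_cfc_le zero_le_one fun x _ => ?_,
    fun φ hφ => cfc_kill φ hc hf f2 hφ, fun φ hφ => ?_⟩
  · rw [Real.norm_of_nonneg (f0 x)]; exact f1 x
  · by_contra hlt
    rw [not_le] at hlt
    have h1 := cfc_lower φ hc (f := fun x => f x ^ 4) (by fun_prop) (by linarith)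
    rw [cfc_pow f 4 c hf.continuousOn hc.isSelfAdjoint, f3 _ hlt.le] at h1
    norm_num at h1
    rw [map_pow] at hφ
    linarith

theorem normal (hX : PI X) {σ : U} (hs : star σ = σ) (hσ : ‖σ‖ ≤ 1)
    (hK : ∀ φ : Hom U, Kills φ X.s → φ σ = 0) {κ : ℝ} (hκ : 0 < κ) :
    ∃ v₀ ∈ X.s, ‖star (v₀ * σ) * (v₀ * σ) - σ ^ 4‖ < κ := by
  obtain ⟨v, hv, h⟩ := approx_sq hX hK hκ
  refine ⟨v, hv, lt_of_le_of_lt ?_ h⟩
  have : star (v * σ) * (v * σ) - σ ^ 4 = σ * (star v * v - star σ * σ) * σ := by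
    rw [star_mul, hs]; noncomm_ring
  rw [this]
  calc _ ≤ ‖σ‖ * ‖star v * v - star σ * σ‖ * ‖σ‖ := norm_mul₃_le
    _ ≤ 1 * ‖star v * v - star σ * σ‖ * 1 := by gcongr
    _ = _ := by ring

omit [PartialOrder U] [StarOrderedRing U] in
theorem norm_le_of_normal {v σ : U} (hσ : ‖σ‖ ≤ 1) (h : ‖star v * v - σ ^ 4‖ < 1 / 100) :
    ‖v‖ ≤ 101 / 100 := by
  refine norm_le_of_sq (by norm_num) ?_
  have h1 : ‖σ ^ 4‖ ≤ 1 := (norm_pow_le' σ (by norm_num)).trans (pow_le_one₀ (norm_nonneg _) hσ)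
  have := norm_add_le (star v * v - σ ^ 4) (σ ^ 4)
  rw [sub_add_cancel] at this
  linarith

theorem normal2 (hX : PI X) {c : U} (hc : 0 ≤ c) {t t' : ℝ} (hcov : Cov X.s c t) (h : t < t') :
    ∃ v ∈ X.s, ‖v‖ ≤ 2 ∧ (∀ φ : Hom U, ‖φ c‖ ≤ t → φ v = 0) ∧
      ∀ φ : Hom U, ‖φ v‖ ≤ 1 / 2 → ‖φ c‖ ≤ t' := by
  obtain ⟨σ, hs, h1, h2, h3⟩ := exists_sigma hc hcov.nonneg h
  obtain ⟨v, hv, h4⟩ := normal hX hs h1 (fun φ hφ => h2 φ (hcov φ hφ)) (κ := 1 / 100) (by norm_num)
  refine ⟨v * σ, X.mul σ hv, (norm_le_of_normal h1 h4).trans (by norm_num),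
    fun φ hφ => by rw [map_mul, h2 φ hφ, mul_zero], fun φ hφ => h3 φ ?_⟩
  have h5 := (φ.norm_le _).trans_lt h4
  rw [map_sub, map_mul, map_star] at h5
  have h6 := norm_sub_le (star (φ (v * σ)) * φ (v * σ)) (star (φ (v * σ)) * φ (v * σ) - φ (σ ^ 4))
  rw [sub_sub_cancel, CStarRing.norm_star_mul_self] at h6
  nlinarith [norm_nonneg (φ (v * σ))]

theorem pos_mem (X : RI U) {g : U} (hg : IsSelfAdjoint g) (hX : g ∈ X.s) : g⁺ ∈ X.s := by
  refine gen_le hX (mem_gen_of_le' zero_le_one ?_)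
  rw [star_pos, one_smul, hg.star_eq]
  conv_rhs => rw [← CFC.posPart_sub_negPart g hg]
  have : (g⁺ - g⁻) * (g⁺ - g⁻) = g⁺ * g⁺ + star g⁻ * g⁻ := by
    rw [star_neg', sub_mul, mul_sub, mul_sub, CFC.posPart_mul_negPart, CFC.negPart_mul_posPart]
    noncomm_ring
  rw [this]
  exact le_add_of_nonneg_right (star_mul_self_nonneg _)

theorem small_of_kills {r₁ r₂ : U} {φ : Hom U} (h : φ (r₁ * star r₁ - r₂ * star r₂)⁺ = 0) :
    ‖φ (star r₁ * r₁)‖ ≤ ‖star r₂ * r₁‖ := by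
  have h1 := nonpos_of_pos_eq_zero φ
    ((IsSelfAdjoint.mul_star_self r₁).sub (.mul_star_self r₂)) h
  have h2 := star_left_conjugate_le_conjugate h1 (φ r₁)
  rw [mul_zero, zero_mul] at h2
  refine le_trans ?_ (φ.norm_le _)
  rw [← one_mul ‖φ (star r₂ * r₁)‖]
  refine norm_le_of_le zero_le_one (sub_nonpos.1 ?_)
  convert h2 using 1
  simp only [map_sub, map_mul, map_star, star_mul, star_star, one_pow, one_smul]
  noncomm_ring

/-- Halving of a right ideal. -/
theorem halve (hX : PI X) {c : U} (hc : 0 ≤ c) {t t' : ℝ} (hcov : Cov X.s c t) (h : t < t') :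
    ∃ X₁ X₂ : RI U, X₁.s ⊆ X.s ∧ X₂.s ⊆ X.s ∧ (∀ a ∈ X₁.s, ∀ b ∈ X₂.s, star a * b = 0) ∧
      Cov X₁.s c t' ∧ Cov X₂.s c t' := by
  obtain ⟨v, hv, -, -, h1⟩ := normal2 hX hc hcov h
  obtain ⟨r, s, e1, e2, e3⟩ := hX v hv (1 / 8) (by norm_num)
  have key : ∀ (r s : U) (φ : Hom U), ‖star r * (star v * v) * r - star v * v‖ < 1 / 8 →
      ‖star (v * s) * (v * r)‖ < 1 / 8 →
      φ (v * r * star (v * r) - v * s * star (v * s))⁺ = 0 → ‖φ c‖ ≤ t' := by
    intro r s φ e1 e3 h2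
    have h3 := small_of_kills h2
    have h4 : star (v * r) * (v * r) = star r * (star v * v) * r := by
      rw [star_mul]; noncomm_ring
    have h5 := (φ.norm_le _).trans_lt e1
    rw [← h4, map_sub] at h5
    have h6 := norm_sub_le (φ (star (v * r) * (v * r)))
      (φ (star (v * r) * (v * r)) - φ (star v * v))
    rw [sub_sub_cancel, map_mul _ (star v), map_star, CStarRing.norm_star_mul_self] at h6
    rw [map_mul _ (star v), map_star] at h5
    refine h1 φ ?_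
    nlinarith [norm_nonneg (φ v)]
  have e4 : ‖star (v * r) * (v * s)‖ < 1 / 8 := by
    convert e3 using 2
    rw [star_mul]; noncomm_ring
  have e5 : ‖star (v * s) * (v * r)‖ < 1 / 8 := by
    rw [← norm_star, star_mul, star_star]; exact e4
  set g := v * r * star (v * r) - v * s * star (v * s) with hg
  have hgs : IsSelfAdjoint g := (IsSelfAdjoint.mul_star_self _).sub (.mul_star_self _)
  have hgX : g ∈ X.s := X.sub (X.mul _ (X.mul _ hv)) (X.mul _ (X.mul _ hv))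
  have hneg : (-g)⁺ ∈ X.s := pos_mem X hgs.neg (by simpa using X.mul (-1) hgX)
  refine ⟨gen g⁺, gen (-g)⁺, gen_le (pos_mem X hgs hgX), gen_le hneg, ?_,
    fun φ hφ => key r s φ e1 e5 (hφ _ (mem_gen _)),
    fun φ hφ => key s r φ e2 e4 (by rw [← neg_sub]; exact hφ _ (mem_gen _))⟩
  intro a ha b hb
  refine gen_ind (P := fun a => star a * b = 0) (isClosed_eq (by fun_prop) continuous_const)
    (fun ρ => ?_) a ha
  refine gen_ind (P := fun b => star (g⁺ * ρ) * b = 0)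
    (isClosed_eq (by fun_prop) continuous_const) (fun ρ' => ?_) b hb
  rw [star_mul, star_pos, CFC.posPart_neg, mul_assoc, ← mul_assoc g⁺, CFC.posPart_mul_negPart]
  simp

theorem cfc_mem_gen {h : U} (hh : 0 ≤ h) {f : ℝ → ℝ} (hf : Continuous f) {δ : ℝ} (hδ : 0 < δ)
    (h0 : ∀ x, x ≤ δ → f x = 0) : cfc f h ∈ (gen h).s := by
  have hs := hh.isSelfAdjoint
  have hpos : ∀ x : ℝ, 0 < max x δ := fun x => lt_max_of_lt_right hδ
  obtain ⟨g, hg, hgc⟩ : ∃ g : ℝ → ℝ, (∀ x, g x = f x / max x δ) ∧ Continuous g :=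
    ⟨_, fun _ => rfl, hf.div (by fun_prop) fun x => (hpos x).ne'⟩
  have : cfc f h = h * cfc g h := by
    have h1 : cfc f h = cfc (fun x => x * g x) h := by
      congr 1
      funext x
      rcases le_total x δ with hx | hx
      · rw [hg, h0 x hx]; simp
      · rw [hg, max_eq_left hx]
        have : x ≠ 0 := by linarith
        field_simp
    rw [h1, cfc_mul _ _ h, cfc_id' ℝ h]
  rw [this]
  exact (gen h).mul _ (mem_gen h)

/-- A spectral gap produces a projection. -/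
theorem exists_proj (hX : PI X) {c : U} (hc : 0 ≤ c) {t₁ t₀ : ℝ} (hcov : Cov X.s c t₁)
    (ht : t₁ < t₀) (hgap : ∀ φ : Hom U, ‖φ c‖ ≤ t₀ → ‖φ c‖ ≤ t₁) :
    ∃ p ∈ X.s, star p = p ∧ p * p = p ∧ ∀ φ : Hom U, φ p = 0 → ‖φ c‖ ≤ t₁ := by
  obtain ⟨v, hv, -, hv1, hv2⟩ := normal2 hX hc hcov ht
  set h := v * star v with hdef
  have hh : 0 ≤ h := mul_star_self_nonneg v
  have hs := hh.isSelfAdjoint
  have hgen : (gen h).s ⊆ X.s := gen_le (X.mul _ hv)
  have gap : ∀ φ : Hom U, ‖φ h‖ ≤ 1 / 4 → φ v = 0 := by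
    intro φ hφ
    rw [hdef, map_mul, map_star, CStarRing.norm_self_mul_star] at hφ
    exact hv1 φ (hgap φ (hv2 φ (by nlinarith [norm_nonneg (φ v)])))
  obtain ⟨f, hf, hfc⟩ : ∃ f : ℝ → ℝ, (∀ x, f x = max (x - 1 / 8) 0) ∧ Continuous f :=
    ⟨_, fun _ => rfl, by fun_prop⟩
  have hf0 : ∀ x, x ≤ 1 / 8 → f x = 0 := fun x hx => by rw [hf, max_eq_right (by linarith)]
  have hX₀ : (gen (cfc f h)).s ⊆ X.s :=
    gen_le (hgen (cfc_mem_gen hh hfc (by norm_num) hf0))
  have hcov₀ : Cov (gen (cfc f h)).s h (1 / 8) := by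
    intro φ hφ
    by_contra hlt
    rw [not_le] at hlt
    have h6 := cfc_lower φ hh hfc (by linarith)
    rw [hφ _ (mem_gen _), norm_zero, hf, max_eq_left (by linarith),
      abs_of_pos (by linarith)] at h6
    linarith
  obtain ⟨X₁, X₂, hX₁, hX₂, horth, hc₁, hc₂⟩ :=
    halve (hX.mono hX₀) hh hcov₀ (t' := 1 / 4) (by norm_num)
  obtain ⟨b, hb, b0, b1, b2, b3⟩ := exists_bump (t := 1 / 16) (t' := 1 / 8) (by norm_num)
  obtain ⟨g, hg, hgc⟩ : ∃ g : ℝ → ℝ, (∀ x, g x = √(1 - b x ^ 4)) ∧ Continuous g :=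
    ⟨_, fun _ => rfl, by fun_prop⟩
  set σ := cfc b h with hσ
  set G := cfc g h with hG
  have hσs : star σ = σ := (cfc_predicate b h : IsSelfAdjoint _)
  have hGs : star G = G := (cfc_predicate g h : IsSelfAdjoint _)
  have hσ1 : ‖σ‖ ≤ 1 := norm_cfc_le zero_le_one fun x _ => by
    rw [Real.norm_of_nonneg (b0 x)]; exact b1 x
  have hσX : σ ∈ X.s := hgen (cfc_mem_gen hh hb (by norm_num) b2)
  have hGX : 1 - G ∈ X.s := by
    have : 1 - G = cfc (fun x => 1 - g x) h := by rw [cfc_sub _ _ h, cfc_const_one ℝ h]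
    rw [this]
    exact hgen (cfc_mem_gen hh (by fun_prop) (δ := 1 / 16) (by norm_num) fun x hx => by
      rw [hg, b2 x hx]; simp)
  have hGG : G * G = 1 - σ ^ 4 := by
    rw [hG, ← cfc_mul _ _ h, hσ, ← cfc_pow b 4 h, ← cfc_const_one ℝ h, ← cfc_sub _ _ h]
    congr 1
    funext x
    rw [hg, Real.mul_self_sqrt (by linarith [pow_le_one₀ (b0 x) (b1 x) (n := 4)])]
  have hG0 : ∀ w ∈ (gen (cfc f h)).s, G * w = 0 := by
    refine gen_ind (isClosed_eq (by fun_prop) continuous_const) fun r => ?_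
    rw [← mul_assoc, hG, ← cfc_mul _ _ h]
    have : (fun x => g x * f x) = fun _ => 0 := by
      funext x
      rcases le_total x (1 / 8) with hx | hx
      · rw [hf0 x hx, mul_zero]
      · rw [hg, b3 x hx]; simp
    rw [this, cfc_const_zero, zero_mul]
  obtain ⟨v₀, hv₀, hz⟩ := normal (hX.mono (hX₁.trans hX₀)) hσs hσ1 (fun φ hφ =>
    cfc_kill φ hh hb b2 (by
      rw [hdef, map_mul, gap φ (hc₁ φ hφ), zero_mul, norm_zero]; norm_num)) one_pos
  set z := v₀ * σ with hzdef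
  have hz₁ : z ∈ X₁.s := X₁.mul σ hv₀
  have hzX : z ∈ X.s := hX₀ (hX₁ hz₁)
  have hzs : star z ∈ X.s := by rw [hzdef, star_mul, hσs]; exact X.mul _ hσX
  set D := star z * z - σ ^ 4 with hD
  have hDX : D ∈ X.s := X.sub (X.mul _ hzs) (by rw [pow_succ']; exact X.mul _ hσX)
  have hGz : G * z = 0 := hG0 z (hX₁ hz₁)
  have hzG : star z * G = 0 := by rw [← hGs, ← star_mul, hGz, star_zero]
  have hss : star (z + G) * (z + G) = 1 + D := by
    rw [star_add, hGs, add_mul, mul_add, mul_add, hzG, hGz, hGG, hD]; abel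
  obtain ⟨R, hR1, hR2⟩ : ∃ R : U, R * (1 + D) = 1 ∧ (1 + D) * R = 1 := by
    let w := Units.oneSub (-D) (by rwa [norm_neg])
    have hw : (w : U) = 1 + D := by simp [w]
    exact ⟨↑w⁻¹, by rw [← hw, Units.inv_mul], by rw [← hw, Units.mul_inv]⟩
  have hRs : star R = R := by
    have h1 : star (1 + D) = 1 + D := by rw [← hss, star_mul, star_star]
    calc star R = star R * ((1 + D) * R) := by rw [hR2, mul_one]
      _ = star ((1 + D) * R) * R := by rw [star_mul, h1, mul_assoc]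
      _ = R := by rw [hR2, star_one, one_mul]
  refine ⟨1 - (z + G) * R * star (z + G), ?_, ?_, ?_, fun φ hφ => ?_⟩
  · have h1 : R = 1 - D * R := by rw [← hR2]; noncomm_ring
    have h2 : 1 - (z + G) * R * star (z + G) = ((1 - G) - star z) + D * (R * star (z + G)) +
        ((1 - G) - z) * (R * star (z + G)) := by
      have h3 : D * (R * star (z + G)) = star (z + G) - R * star (z + G) := by
        rw [← mul_assoc, show D * R = 1 - R by rw [← hR2]; noncomm_ring]; noncomm_ring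
      rw [h3, star_add, hGs]
      noncomm_ring
    rw [h2]
    exact X.add (X.add (X.sub hGX hzs) (X.mul _ hDX)) (X.mul _ (X.sub hGX hzX))
  · rw [star_sub, star_one, star_mul, star_mul, star_star, hRs, mul_assoc]
  · have h1 : (z + G) * R * star (z + G) * ((z + G) * R * star (z + G)) =
        (z + G) * (R * (star (z + G) * (z + G))) * R * star (z + G) := by noncomm_ring
    rw [hss, hR1, mul_one] at h1
    rw [sub_mul, mul_sub, mul_sub, h1]
    noncomm_ring
  · refine hgap φ (hv2 φ ?_)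
    rw [gap φ (hc₂ φ fun w hw => ?_), norm_zero]
    · norm_num
    have h1 : (1 - (z + G) * R * star (z + G)) * w = w := by
      rw [sub_mul, one_mul, mul_assoc, star_add, hGs, add_mul (star z), horth z hz₁ w hw,
        hG0 w (hX₂ hw)]
      simp
    rw [← h1, map_mul, hφ, zero_mul]

end Crest.Agent.R110
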