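import Crest.Agent.R110.Halve

/-!
Row 110: the projection case, the gain lemma and the two reductions.
-/

set_option autoImplicit false

namespace Crest.Agent.R110

universe u

variable {U : Type u} [CStarAlgebra U] [PartialOrder U] [StarOrderedRing U]

/-- Smaller right ideals which still cover `c` and `d` and on which the form is small. -/
def Sol (x : U) (X Y : RI U) (c : U) (t : ℝ) (d : U) (s θ : ℝ) : Prop :=
  ∃ X' Y' : RI U, X'.s ⊆ X.s ∧ Y'.s ⊆ Y.s ∧ Cov X'.s c t ∧ Cov Y'.s d s ∧ Bd x X'.s Y'.s θ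

variable {x c d : U} {X Y : RI U}

omit [PartialOrder U] [StarOrderedRing U] in
theorem Sol.symm {t s θ : ℝ} (h : Sol x X Y c t d s θ) : Sol (star x) Y X d s c t θ := by
  obtain ⟨X', Y', h1, h2, h3, h4, h5⟩ := h
  exact ⟨Y', X', h2, h1, h4, h3, h5.symm⟩

omit [PartialOrder U] [StarOrderedRing U] in
theorem Sol.mono {t s θ t' s' : ℝ} (h : Sol x X Y c t d s θ) (ht : t ≤ t') (hs : s ≤ s') :
    Sol x X Y c t' d s' θ := by
  obtain ⟨X', Y', h1, h2, h3, h4, h5⟩ := h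
  exact ⟨X', Y', h1, h2, h3.mono subset_rfl ht, h4.mono subset_rfl hs, h5⟩

omit [PartialOrder U] [StarOrderedRing U] in
theorem PI.image {φ : Hom U} {X' : RI φ.Q} (h : X'.s = φ '' X.s) (hX : PI X) : PI X' := by
  intro v hv ε hε
  rw [h] at hv
  obtain ⟨v, hv, rfl⟩ := hv
  obtain ⟨r, s, e1, e2, e3⟩ := hX v hv ε hε
  refine ⟨φ r, φ s, ?_, ?_, ?_⟩
  · simpa [map_star] using (φ.norm_le _).trans_lt e1
  · simpa [map_star] using (φ.norm_le _).trans_lt e2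
  · simpa [map_star] using (φ.norm_le _).trans_lt e3

omit [PartialOrder U] [StarOrderedRing U] in
theorem Cov.image {φ : Hom U} {X' : RI φ.Q} (h : X'.s = φ '' X.s) {t : ℝ} (hX : Cov X.s c t) :
    Cov X'.s (φ c) t := fun ψ hψ =>
  hX (φ.comp ψ) fun w hw => hψ _ (h ▸ ⟨w, hw, rfl⟩)

omit [PartialOrder U] [StarOrderedRing U] in
theorem eq_zero_of_le {a : U} {θ θ' : ℝ} (h : θ * ‖a‖ ≤ θ' * ‖a‖) (hθ : θ' < θ) : a = 0 := by
  rw [← norm_le_zero_iff]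
  by_contra hlt
  rw [not_le] at hlt
  nlinarith

/-- The algebra behind the projection case. -/
theorem proj_alg {p z y w₁ w₂ : U} (hp : star p = p) {δ : ℝ} (hδ : 0 < δ)
    (h1 : w₁ ∈ (gen y).s) (h2 : w₂ ∈ (gen y).s) (h12 : star w₂ * w₁ = 0)
    (hb : ∀ w ∈ (gen y).s, δ * ‖w‖ ≤ ‖p * z * w‖)
    (hG : δ ^ 2 • (star p * p) ≤ p * z * w₁ * star (p * z * w₁)) : w₂ = 0 := by
  have h3 : p * z * w₂ ∈ (gen (p * z * w₁)).s := by
    refine mem_gen_of_le' (l := ‖z * w₂ * star (z * w₂)‖ / δ ^ 2) (by positivity) ?_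
    have h4 : p * z * w₂ * star (p * z * w₂) = star p * (z * w₂ * star (z * w₂)) * p := by
      simp only [star_mul, hp, mul_assoc]
    rw [h4]
    refine (CStarAlgebra.star_left_conjugate_le_norm_smul (.mul_star_self _)).trans ?_
    have h5 := smul_le_smul_of_nonneg_left hG
      (a := ‖z * w₂ * star (z * w₂)‖ / δ ^ 2) (by positivity)
    rwa [smul_smul, div_mul_cancel₀ _ (by positivity)] at h5
  have h4 := gen_ind (P := fun a => δ * ‖star w₂ * w₂‖ ≤ ‖w₂‖ * ‖p * z * w₂ - a‖)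
    (isClosed_le continuous_const (by fun_prop)) (fun ρ => by
      have h5 := hb _ ((gen y).sub h2 ((gen y).mul ρ h1))
      have h6 : star w₂ * w₂ = star w₂ * (w₂ - w₁ * ρ) := by
        rw [mul_sub, ← mul_assoc, h12, zero_mul, sub_zero]
      have h7 : ‖star w₂ * (w₂ - w₁ * ρ)‖ ≤ ‖w₂‖ * ‖w₂ - w₁ * ρ‖ :=
        (norm_mul_le _ _).trans (by rw [norm_star])
      rw [mul_sub, ← mul_assoc] at h5
      rw [h6]
      calc δ * ‖star w₂ * (w₂ - w₁ * ρ)‖ ≤ δ * (‖w₂‖ * ‖w₂ - w₁ * ρ‖) := by gcongr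
        _ = ‖w₂‖ * (δ * ‖w₂ - w₁ * ρ‖) := by ring
        _ ≤ _ := by gcongr) _ h3
  rw [sub_self, norm_zero, mul_zero] at h4
  refine eq_zero_of_star_mul (norm_le_zero_iff.1 ?_)
  by_contra hlt
  rw [not_le] at hlt
  nlinarith

/-- The case where one side contains a covering projection. -/
theorem proj_case (hX : PI X) (hY : PI Y) {p : U} (hpX : p ∈ X.s) (hp : star p = p)
    (hpp : p * p = p) (hd : 0 ≤ d) {s s' η : ℝ} (hs : s < s') (hη : 0 < η) (hdY : Cov Y.s d s) :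
    ∃ X' Y' : RI U, X'.s ⊆ X.s ∧ Y'.s ⊆ Y.s ∧ (∀ φ : Hom U, Kills φ X'.s → φ p = 0) ∧
      Cov Y'.s d s' ∧ Bd x X'.s Y'.s η := by
  obtain ⟨s₃, h03, h3⟩ := exists_between hs
  obtain ⟨s₂, h02, h23⟩ := exists_between h03
  obtain ⟨s₁, h01, h12⟩ := exists_between h02
  have hp0 : 0 ≤ p := by rw [← hpp]; nth_rewrite 1 [← hp]; exact star_mul_self_nonneg p
  obtain ⟨y, hy, -, -, hy2⟩ := normal2 hY hd hdY h01
  have hY₁ : PI (gen y) := hY.mono (gen_le hy)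
  have hc₁ : Cov (gen y).s d s₁ := fun φ hφ => hy2 φ (by rw [hφ _ (mem_gen y)]; simp)
  set δ := η / 16 with hδdef
  have hδ : 0 < δ := by positivity
  obtain ⟨C, hC1, hC2, hC3⟩ := coneB y (p * x) hδ.le
  obtain ⟨Y₁, Y₂, hY1, hY2, horth, hc1, hc2⟩ := halve hY₁ hd hc₁ h12
  obtain ⟨w₂, hw₂, -, -, hw₂2⟩ := normal2 (hY₁.mono hY2) hd hc2 h23
  obtain ⟨w₁, hw₁, -, hw₁1, hw₁2⟩ :=
    normal2 (hY₁.mono hY1) hd (hc1.mono subset_rfl h23.le) h3
  have h21 : star w₂ * w₁ = 0 := by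
    rw [← star_star w₁, ← star_mul, horth w₁ hw₁ w₂ hw₂, star_zero]
  obtain ⟨φ, J, hφ, hφC, hJ⟩ := exists_quot_gen C.s
  obtain ⟨P, hP⟩ := exists_image hφ (gen p)
  obtain ⟨D, hD1, hD2, hD3⟩ := exists_cone (φ p)
    (G := δ ^ 2 • (star (φ p) * φ p) - φ (p * x * w₁) * star (φ (p * x * w₁))) (l := δ ^ 2)
    ((IsSelfAdjoint.all _ |>.smul (.star_mul_self _)).sub (.mul_star_self _))
    (sub_le_self _ (mul_star_self_nonneg _))
  have hDP : D.s ⊆ φ '' (gen p).s := hP ▸ hD1.trans (gen_le (hP ▸ ⟨p, mem_gen p, rfl⟩))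
  have hDb : ∀ a ∈ D.s, ‖star a * φ x * φ w₁‖ ≤ δ * ‖a‖ := by
    refine hD2 _ (isClosed_le (by fun_prop) (by fun_prop)) fun ρ hρ => ?_
    rw [← norm_star]
    refine norm_le_of_le hδ.le (sub_nonneg.1 ?_)
    convert hρ using 1
    simp only [star_mul, star_star, map_mul, mul_sub, sub_mul, mul_smul_comm, smul_mul_assoc,
      mul_assoc, ← map_star φ.π p, hp]
  obtain ⟨X₁, hX₁, hX₁D, hlift⟩ := lift hφ (gen p) D hDP
  have hcov : Cov X₁.s p 0 := by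
    refine hlift p 0 hp0 (fun ψ hψ => by rw [hψ _ (mem_gen p), norm_zero]) fun ψ hψ => ?_
    have hG := hD3 ψ hψ
    set χ := φ.comp ψ with hχ
    have hχC : Kills χ C.s := fun w hw => by
      change ψ (φ w) = 0
      rw [hφC w hw, map_zero]
    have hG' : δ ^ 2 • (star (χ p) * χ p) ≤ χ p * χ x * χ w₁ * star (χ p * χ x * χ w₁) := by
      rw [← sub_nonpos]
      change δ ^ 2 • (star (ψ (φ p)) * ψ (φ p)) - ψ (φ p) * ψ (φ x) * ψ (φ w₁) *
        star (ψ (φ p) * ψ (φ x) * ψ (φ w₁)) ≤ 0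
      simpa only [map_sub, ψ.smul, map_mul, map_star] using hG
    have h4 : χ w₂ = 0 := proj_alg (p := χ p) (z := χ x) (y := χ y) (w₁ := χ w₁)
      (by rw [← map_star, hp]) hδ (map_gen χ (hY1 hw₁))
      (map_gen χ (hY2 hw₂)) (by rw [← map_star, ← map_mul, h21, map_zero])
      (fun w hw => by simpa using hC3 χ hχC w hw) hG'
    have h5 : χ w₁ = 0 := hw₁1 χ (hw₂2 χ (by rw [h4]; simp))
    rw [h5, mul_zero, zero_mul] at hG'
    have h6 : δ * ‖χ p‖ ≤ ‖(0 : χ.Q)‖ := le_norm_of_le (by simpa using hG')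
    rw [norm_zero] at h6
    change ‖χ p‖ ≤ 0
    by_contra hlt
    rw [not_le] at hlt
    nlinarith
  have hX₁X : X₁.s ⊆ X.s := hX₁.trans (gen_le hpX)
  obtain ⟨v, hv, hvp⟩ := approx_sq (hX.mono hX₁X) (z := p)
    (fun ψ hψ => norm_le_zero_iff.1 (hcov ψ hψ)) (κ := 1 / 100) (by norm_num)
  rw [hp, hpp] at hvp
  have hp1 : ‖p‖ ≤ 1 := by
    have h1 : ‖p‖ * ‖p‖ = ‖p‖ := by rw [← CStarRing.norm_star_mul_self, hp, hpp]
    nlinarith [norm_nonneg p]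
  have hv2 : ‖v‖ ≤ 2 := by
    refine norm_le_of_sq (by norm_num) ?_
    have := norm_add_le (star v * v - p) p
    rw [sub_add_cancel] at this
    linarith
  have hpv : star v * p = star v := by
    have : p * v = v := gen_ind (P := fun w => p * w = w) (isClosed_eq (by fun_prop) (by fun_prop))
      (fun r => by rw [← mul_assoc, hpp]) v (hX₁ hv)
    rw [← hp, ← star_mul, this]
  obtain ⟨X', Y', hX', hY', hB, hk1, hk2⟩ := test x v y (θ := η / 2) (μ := 1 / 2)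
    (by positivity) (by norm_num)
  refine ⟨X', Y', hX'.trans (gen_le (hX₁X hv)), hY'.trans (gen_le hy), fun ψ hψ => ?_,
    fun ψ hψ => ?_, hB.mono subset_rfl subset_rfl (by linarith)⟩
  · have h1 := hk1 ψ hψ
    have h2 := (ψ.norm_le _).trans_lt hvp
    have h4 := norm_sub_le (ψ (star v * v)) (ψ (star v * v - p))
    rw [← map_sub, sub_sub_cancel, map_mul, map_star, CStarRing.norm_star_mul_self] at h4
    have h5 : ‖ψ p‖ * ‖ψ p‖ = ‖ψ p‖ := by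
      rw [← CStarRing.norm_star_mul_self, ← map_star, ← map_mul, hp, hpp]
    have h6 : ‖ψ p‖ < 1 / 2 := by nlinarith [norm_nonneg (ψ v)]
    rw [← norm_le_zero_iff]
    nlinarith [norm_nonneg (ψ p)]
  · have h1 : Kills ψ J := hJ ψ fun w hw => by
      refine eq_zero_of_le (θ := η / 2) (θ' := 2 * δ) ((hk2 ψ hψ w (hC1 hw)).trans ?_)
        (by linarith)
      have h2 : star v * x * w = star v * (p * x * w) := by
        rw [← hpv]; simp only [mul_assoc, ← mul_assoc p p, hpp]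
      rw [h2, map_mul, map_star]
      calc ‖star (ψ v) * ψ (p * x * w)‖ ≤ ‖ψ v‖ * ‖ψ (p * x * w)‖ :=
            (norm_mul_le _ _).trans (by rw [norm_star])
        _ ≤ 2 * (δ * ‖ψ w‖) := by
            gcongr
            · exact (ψ.norm_le v).trans hv2
            · exact hC2 ψ w hw
        _ = _ := by ring
    refine hw₁2 ψ ?_
    have h2 := (hk2 ψ hψ w₁ (hY1 hw₁)).trans (hφ.norm_le h1 _)
    have h4 := hDb _ (hX₁D v hv)
    rw [map_mul, map_mul, map_star] at h2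
    have h5 : δ * ‖φ v‖ ≤ δ * 2 := by gcongr; exact (φ.norm_le v).trans hv2
    have h6 : η / 2 * ‖ψ w₁‖ ≤ η / 2 * (1 / 2) := by linarith
    exact le_of_mul_le_mul_left h6 (by positivity)

theorem thmA (hX : PI X) (hY : PI Y) (hc : 0 ≤ c) (hd : 0 ≤ d) {t₁ t₀ s s' η : ℝ} (ht : t₁ < t₀)
    (hgap : ∀ φ : Hom U, ‖φ c‖ ≤ t₀ → ‖φ c‖ ≤ t₁) (hs : s < s') (hη : 0 < η)
    (hcX : Cov X.s c t₁) (hdY : Cov Y.s d s) : Sol x X Y c t₁ d s' η := by
  obtain ⟨p, hpX, hp, hpp, hpc⟩ := exists_proj hX hc hcX ht hgap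
  obtain ⟨X', Y', h1, h2, h3, h4, h5⟩ := proj_case (x := x) hX hY hpX hp hpp hd hs hη hdY
  exact ⟨X', Y', h1, h2, fun φ hφ => hpc φ (h3 φ hφ), h4, h5⟩

/-- The gain lemma. -/
theorem gain (hX : PI X) (hY : PI Y) (hc : 0 ≤ c) (hd : 0 ≤ d) {t ta t' s sa s' β η : ℝ}
    (h1 : t < ta) (h2 : ta < t') (h3 : s < sa) (h4 : sa < s') (hβ0 : 0 ≤ β) (hη : 0 < η)
    (hcX : Cov X.s c t) (hdY : Cov Y.s d s) (hβ : Bd x X.s Y.s β)
    (H : ∀ φ : Hom U, (∀ ψ : Hom φ.Q, ‖ψ (φ c)‖ ≤ ta → ‖ψ (φ d)‖ ≤ sa) →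
      ∀ X' Y' : RI φ.Q, PI X' → PI Y' → ∀ t₁ s₂ η : ℝ, t₁ < ta → sa < s₂ → 0 < η →
        Cov X'.s (φ c) t₁ → Cov Y'.s (φ d) sa → Sol (φ x) X' Y' (φ c) ta (φ d) s₂ η) :
    Sol x X Y c t' d s' (3 / 4 * β + η) := by
  obtain ⟨t₁, h01, h1a⟩ := exists_between h1
  obtain ⟨s₂, ha2, h2'⟩ := exists_between h4
  obtain ⟨X₁, X₂, hX1, hX2, horth, hc1, hc2⟩ := halve hX hc hcX h01
  obtain ⟨σ, hσs, hσ1, hσ2, hσ3⟩ := exists_sigma hc (hcX.nonneg.trans h1.le) h2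
  obtain ⟨u₁, hu₁, hv₁⟩ := normal (hX.mono hX1) hσs hσ1
    (fun φ hφ => hσ2 φ ((hc1 φ hφ).trans h1a.le)) (κ := 1 / 100) (by norm_num)
  set v₁ := u₁ * σ with hv₁def
  have hv₁X : v₁ ∈ X₁.s := X₁.mul σ hu₁
  obtain ⟨y, hy, -, -, hy2⟩ := normal2 hY hd hdY h3
  set δ := η / 16 with hδdef
  have hδ : 0 < δ := by positivity
  obtain ⟨C, hC1, hC2, hC3⟩ := coneB y (star v₁ * x) hδ.le
  obtain ⟨φ, J, hφ, hφC, hJ⟩ := exists_quot_gen C.s
  obtain ⟨P, hP⟩ := exists_image hφ X₂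
  obtain ⟨R, hR⟩ := exists_image hφ Y
  obtain ⟨P', R', hP', hR', hcP, hcR, hB⟩ := H φ (fun ψ hψ => by
      set χ := φ.comp ψ with hχ
      have hχC : Kills χ C.s := fun w hw => by
        change ψ (φ w) = 0
        rw [hφC w hw, map_zero]
      have e1 : χ v₁ = 0 := by rw [hv₁def, map_mul, hσ2 χ hψ, mul_zero]
      have e2 := hC3 χ hχC _ (mem_gen _)
      rw [map_mul, map_star, e1, star_zero, zero_mul, zero_mul, norm_zero] at e2
      refine hy2 χ ?_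
      by_contra hlt
      rw [not_le] at hlt
      nlinarith)
    P R (PI.image hP (hX.mono hX2)) (PI.image hR hY) t₁ s₂ δ h1a ha2 hδ (Cov.image hP hc2)
    (Cov.image hR (hdY.mono subset_rfl h3.le))
  obtain ⟨X₃, hX3, hX3P, hl1⟩ := lift hφ X₂ P' (hP ▸ hP')
  obtain ⟨Y₃, hY3, hY3R, hl2⟩ := lift hφ Y R' (hR ▸ hR')
  have hc3 : Cov X₃.s c ta := hl1 c ta hc (hc2.mono subset_rfl h1a.le) hcP
  have hd3 : Cov Y₃.s d s₂ := hl2 d s₂ hd (hdY.mono subset_rfl (h3.trans ha2).le) hcR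
  obtain ⟨u₂, hu₂, hv₂⟩ := normal (hX.mono (hX3.trans hX2)) hσs hσ1
    (fun φ hφ => hσ2 φ (hc3 φ hφ)) (κ := 1 / 100) (by norm_num)
  set v₂ := u₂ * σ with hv₂def
  have hv₂X : v₂ ∈ X₃.s := X₃.mul σ hu₂
  obtain ⟨w, hw, hw0, -, hw2⟩ := normal2 (hY.mono hY3) hd hd3 h2'
  have n1 := norm_le_of_normal hσ1 hv₁
  have n2 := norm_le_of_normal hσ1 hv₂
  set k := y * star y + w * star w with hk
  have hk0 : 0 ≤ k := add_nonneg (mul_star_self_nonneg _) (mul_star_self_nonneg _)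
  have hkY : k ∈ Y.s := Y.add (Y.mul _ hy) (Y.mul _ (hY3 hw))
  have hyk : y ∈ (gen k).s := mem_gen_of_le hk0 zero_le_one (by
    rw [one_smul]; exact le_add_of_nonneg_right (mul_star_self_nonneg _))
  have hwk : w ∈ (gen k).s := mem_gen_of_le hk0 zero_le_one (by
    rw [one_smul]; exact le_add_of_nonneg_left (mul_star_self_nonneg _))
  obtain ⟨X', Y', hX', hY', hB', hk1, hk2⟩ := test x (v₁ + v₂) k (θ := 101 / 100 * β + η)
    (μ := 7 / 5) (by positivity) (by norm_num)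
  have split : ∀ (ψ : Hom U) (a : U), ‖ψ (star (v₁ + v₂) * x * a)‖ ≤
      ‖ψ (star v₁ * x * a)‖ + ‖ψ (star v₂ * x * a)‖ := fun ψ a => by
    rw [star_add, add_mul, add_mul, map_add]; exact norm_add_le _ _
  have bd : ∀ (ψ : Hom U) (v a : U), v ∈ X.s → a ∈ Y.s → ‖v‖ ≤ 101 / 100 →
      ‖ψ (star v * x * a)‖ ≤ 101 / 100 * β * ‖ψ a‖ := fun ψ v a hv ha hn =>
    calc _ ≤ β * ‖ψ v‖ * ‖ψ a‖ := hβ ψ v hv a ha
      _ ≤ β * (101 / 100) * ‖ψ a‖ := by gcongr; exact (ψ.norm_le v).trans hn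
      _ = _ := by ring
  refine ⟨X', Y', hX'.trans (gen_le (X.add (hX1 hv₁X) (hX2 (hX3 hv₂X)))), hY'.trans (gen_le hkY),
    fun ψ hψ => hσ3 ψ ?_, fun ψ hψ => ?_, hB'.mono subset_rfl subset_rfl (by linarith)⟩
  · have e1 := hk1 ψ hψ
    have e2 : star v₁ * v₂ = 0 := horth v₁ hv₁X v₂ (hX3 hv₂X)
    have e3 : star v₂ * v₁ = 0 := by rw [← star_star v₁, ← star_mul, e2, star_zero]
    have e4 : (2 : ℝ) • σ ^ 4 = star (v₁ + v₂) * (v₁ + v₂) - (star v₁ * v₁ - σ ^ 4) -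
        (star v₂ * v₂ - σ ^ 4) := by
      rw [star_add, add_mul, mul_add, mul_add, e2, e3, two_smul]; abel
    have e5 := congrArg (fun a => ‖ψ a‖) e4
    simp only [ψ.smul, norm_smul, Real.norm_ofNat] at e5
    rw [map_sub, map_sub _ (star (v₁ + v₂) * (v₁ + v₂))] at e5
    have e6 := (ψ.norm_le _).trans_lt hv₁
    have e7 := (ψ.norm_le _).trans_lt hv₂
    have e8 := norm_sub_le (ψ (star (v₁ + v₂) * (v₁ + v₂)) - ψ (star v₁ * v₁ - σ ^ 4))
      (ψ (star v₂ * v₂ - σ ^ 4))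
    have e9 := norm_sub_le (ψ (star (v₁ + v₂) * (v₁ + v₂))) (ψ (star v₁ * v₁ - σ ^ 4))
    have e10 : ‖ψ (star (v₁ + v₂) * (v₁ + v₂))‖ = ‖ψ (v₁ + v₂)‖ * ‖ψ (v₁ + v₂)‖ := by
      rw [map_mul, map_star, CStarRing.norm_star_mul_self]
    nlinarith [norm_nonneg (ψ (v₁ + v₂))]
  · have e1 : Kills ψ J := hJ ψ fun a ha => by
      refine eq_zero_of_le (θ := 101 / 100 * β + η) (θ' := δ + 101 / 100 * β)
        ((hk2 ψ hψ a (gen_le hyk (hC1 ha))).trans ((split ψ a).trans ?_)) (by linarith)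
      have e2 := hC2 ψ a ha
      have e3 := bd ψ v₂ a (hX2 (hX3 hv₂X)) (gen_le hy (hC1 ha)) n2
      linarith
    refine hw2 ψ ?_
    have e2 := (hk2 ψ hψ w hwk).trans (split ψ w)
    have e3 := bd ψ v₁ w (hX1 hv₁X) (hY3 hw) n1
    have e4 := hφ.norm_le e1 (star v₂ * x * w)
    have e5 := hB (Hom.id φ.Q) _ (hX3P v₂ hv₂X) _ (hY3R w hw)
    change ‖star (φ v₂) * φ x * φ w‖ ≤ δ * ‖φ v₂‖ * ‖φ w‖ at e5
    rw [map_mul, map_mul, map_star, map_mul φ.π, map_mul φ.π, map_star φ.π] at e4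
    rw [map_mul _ (star v₂ * x), map_mul _ (star v₂), map_star ψ.π v₂] at e2
    have e6 : δ * ‖φ v₂‖ * ‖φ w‖ ≤ δ * 2 * 2 := by
      gcongr
      · exact (φ.norm_le _).trans (n2.trans (by norm_num))
      · exact (φ.norm_le _).trans hw0
    have e7 : η * ‖ψ w‖ ≤ η * (1 / 2) := by linarith
    exact le_of_mul_le_mul_left e7 hη

omit [PartialOrder U] [StarOrderedRing U] in
theorem iter {T s₀ S : ℝ}
    (step : ∀ (X Y : RI U) (t s t' s' β η : ℝ), PI X → PI Y → t < t' → t' < T → s₀ ≤ s → s < s' →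
      0 ≤ β → 0 < η → Cov X.s c t → Cov Y.s d s → Bd x X.s Y.s β →
      Sol x X Y c t' d s' (3 / 4 * β + η))
    (hX : PI X) (hY : PI Y) {t s η : ℝ} (ht : t < T) (hs₀ : s₀ ≤ s) (hs : s < S) (hη : 0 < η)
    (hcX : Cov X.s c t) (hdY : Cov Y.s d s) : Sol x X Y c T d S η := by
  have key : ∀ n : ℕ, ∃ t' s', t' < T ∧ s₀ ≤ s' ∧ s' < S ∧
      Sol x X Y c t' d s' ((3 / 4) ^ n * ‖x‖ + η / 2) := by
    intro n
    induction n with
    | zero => exact ⟨t, s, ht, hs₀, hs, X, Y, subset_rfl, subset_rfl, hcX, hdY,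
        (bd_norm x _ _).mono subset_rfl subset_rfl (by linarith)⟩
    | succ n ih =>
      obtain ⟨t₁, s₁, h1, h2, h3, X₁, Y₁, h4, h5, h6, h7, h8⟩ := ih
      obtain ⟨t₂, h9, h10⟩ := exists_between h1
      obtain ⟨s₂, h11, h12⟩ := exists_between h3
      obtain ⟨X₂, Y₂, e1, e2, e3, e4, e5⟩ := step X₁ Y₁ t₁ s₁ t₂ s₂ _ (η / 8) (hX.mono h4)
        (hY.mono h5) h9 h10 h2 h11 (by positivity) (by positivity) h6 h7 h8
      exact ⟨t₂, s₂, h10, h2.trans h11.le, h12, X₂, Y₂, e1.trans h4, e2.trans h5, e3, e4,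
        e5.mono subset_rfl subset_rfl (le_of_eq (by ring))⟩
  obtain ⟨n, hn⟩ := exists_pow_lt_of_lt_one (x := η / 2 / (‖x‖ + 1)) (y := (3 / 4 : ℝ))
    (by positivity) (by norm_num)
  obtain ⟨t', s', h1, -, h3, X', Y', e1, e2, e3, e4, e5⟩ := key n
  refine ⟨X', Y', e1, e2, e3.mono subset_rfl h1.le, e4.mono subset_rfl h3.le,
    e5.mono subset_rfl subset_rfl ?_⟩
  rw [lt_div_iff₀ (by positivity)] at hn
  have : (0 : ℝ) < (3 / 4) ^ n := by positivity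
  nlinarith

theorem thmB (hX : PI X) (hY : PI Y) (hc : 0 ≤ c) (hd : 0 ≤ d) {t₀ s₀ t s s' η : ℝ}
    (hD : ∀ φ : Hom U, ‖φ c‖ ≤ t₀ → ‖φ d‖ ≤ s₀) (ht : t < t₀) (hs₀ : s₀ ≤ s) (hs : s < s')
    (hη : 0 < η) (hcX : Cov X.s c t) (hdY : Cov Y.s d s) : Sol x X Y c t₀ d s' η := by
  refine iter (s₀ := s₀) ?_ hX hY ht hs₀ hs hη hcX hdY
  intro X Y t s t' s' β η hX hY h1 h2 h3 h4 hβ0 hη hcX hdY hβ
  obtain ⟨ta, h5, h6⟩ := exists_between h1
  obtain ⟨sa, h7, h8⟩ := exists_between h4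
  have := gain hY hX hd hc h7 h8 h5 h6 hβ0 hη hdY hcX hβ.symm
    (fun φ hφ Y' X' hY' hX' s₁ t₂ η e1 e2 e3 e4 e5 => by
      rw [map_star]
      exact ((thmA hX' hY' (φ.nonneg hc) (φ.nonneg hd) (h6.trans h2)
        (fun ψ hψ => hφ ψ ((hD (φ.comp ψ) hψ).trans (h3.trans h7.le))) e1 e3 e5 e4).mono
        e2.le le_rfl).symm)
  simpa using this.symm

theorem thmC (hX : PI X) (hY : PI Y) (hc : 0 ≤ c) (hd : 0 ≤ d) {t t' s s' η : ℝ} (ht : t < t')
    (hs : s < s') (hη : 0 < η) (hcX : Cov X.s c t) (hdY : Cov Y.s d s) :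
    Sol x X Y c t' d s' η := by
  refine iter (s₀ := s) ?_ hX hY ht le_rfl hs hη hcX hdY
  intro X Y t s t' s' β η hX hY h1 _ _ h4 hβ0 hη hcX hdY hβ
  obtain ⟨ta, h5, h6⟩ := exists_between h1
  obtain ⟨sa, h7, h8⟩ := exists_between h4
  exact gain hX hY hc hd h5 h6 h7 h8 hβ0 hη hcX hdY hβ
    (fun φ hφ X' Y' hX' hY' t₁ s₂ η e1 e2 e3 e4 e5 =>
      thmB hX' hY' (φ.nonneg hc) (φ.nonneg hd) hφ e1 le_rfl e2 e3 e4 e5)

theorem side {a : U} (ha : 0 ≤ a) {δ : ℝ} (hδ : 0 < δ) :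
    ∃ (X : RI U) (k : U), X.s ⊆ (gen a).s ∧ star k = k ∧ Cov X.s a δ ∧
      ∀ X' : RI U, X'.s ⊆ X.s → PI X' → Cov X'.s a (2 * δ) →
        ∃ v ∈ X'.s, ‖star (k * v) * a * (k * v) - a‖ < 3 * δ ∧ ‖v‖ ≤ ‖a‖ + 3 * δ + 1 := by
  have hs := ha.isSelfAdjoint
  obtain ⟨f, hf, hfc⟩ : ∃ f : ℝ → ℝ, (∀ x, f x = max (x - δ) 0) ∧ Continuous f :=
    ⟨_, fun _ => rfl, by fun_prop⟩
  have hf0 : ∀ x, x ≤ δ → f x = 0 := fun x hx => by rw [hf, max_eq_right (by linarith)]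
  have hpos : ∀ x : ℝ, 0 < √(max x δ) := fun x => Real.sqrt_pos.2 (lt_max_of_lt_right hδ)
  obtain ⟨g, hg, hgc⟩ : ∃ g : ℝ → ℝ, (∀ x, g x = (√(max x δ))⁻¹) ∧ Continuous g :=
    ⟨_, fun _ => rfl, Continuous.inv₀ (by fun_prop) fun x => (hpos x).ne'⟩
  obtain ⟨m, hm, hmc⟩ : ∃ m : ℝ → ℝ, (∀ x, m x = √(max (x - 2 * δ) 0)) ∧ Continuous m :=
    ⟨_, fun _ => rfl, by fun_prop⟩
  have hks : star (cfc g a) = cfc g a := (cfc_predicate g a : IsSelfAdjoint _)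
  have hms : star (cfc m a) = cfc m a := (cfc_predicate m a : IsSelfAdjoint _)
  refine ⟨gen (cfc f a), cfc g a, gen_le (cfc_mem_gen ha hfc hδ hf0), hks, fun φ hφ => ?_,
    fun X' hX' hPI hcov => ?_⟩
  · by_contra hlt
    rw [not_le] at hlt
    have h6 := cfc_lower φ ha hfc (by linarith)
    rw [hφ _ (mem_gen _), norm_zero, hf, max_eq_left (by linarith),
      abs_of_pos (by linarith)] at h6
    linarith
  obtain ⟨v, hv, h1⟩ := approx_sq hPI (z := cfc m a) (fun φ hφ => cfc_kill φ ha hmc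
    (fun x hx => by rw [hm, max_eq_right (by linarith), Real.sqrt_zero]) (hcov φ hφ)) hδ
  have h2 : ‖star (cfc m a) * cfc m a - a‖ ≤ 2 * δ := by
    have : star (cfc m a) * cfc m a - a = cfc (fun x => m x * m x - x) a := by
      rw [hms, cfc_sub _ _ a, cfc_mul _ _ a, cfc_id' ℝ a]
    rw [this]
    refine norm_cfc_le (by positivity) fun x hx => ?_
    have h0 : 0 ≤ x := spectrum_nonneg_of_nonneg ha hx
    rw [hm, Real.mul_self_sqrt (le_max_right _ _), Real.norm_eq_abs, abs_le]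
    rcases le_total (x - 2 * δ) 0 with h | h
    · rw [max_eq_right h]; constructor <;> linarith
    · rw [max_eq_left h]; constructor <;> linarith
  have h3 : cfc g a * a * cfc g a * v = v := by
    refine gen_ind (P := fun w => cfc g a * a * cfc g a * w = w)
      (isClosed_eq (by fun_prop) (by fun_prop)) (fun r => ?_) v (hX' hv)
    have e1 : cfc g a * a * cfc g a * cfc f a = cfc (fun x => g x * x * g x * f x) a := by
      rw [cfc_mul _ _ a, cfc_mul _ _ a, cfc_mul _ _ a, cfc_id' ℝ a]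
    have e2 : (fun x => g x * x * g x * f x) = f := by
      funext x
      rcases le_total x δ with hx | hx
      · rw [hf0 x hx, mul_zero]
      · have e3 := hpos x
        rw [max_eq_left hx] at e3
        have e4 : √x * √x = x := Real.mul_self_sqrt (by linarith)
        rw [hg, max_eq_left hx]
        have e5 : (√x)⁻¹ * x * (√x)⁻¹ = 1 := by field_simp; rw [sq, e4]
        rw [e5, one_mul]
    rw [← mul_assoc, e1, e2]
  have h4 : star (cfc g a * v) * a * (cfc g a * v) = star v * v := by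
    rw [star_mul, hks]
    calc star v * cfc g a * a * (cfc g a * v) = star v * (cfc g a * a * cfc g a * v) := by
          noncomm_ring
      _ = _ := by rw [h3]
  have h5 : ‖star v * v - a‖ < 3 * δ := by
    have := norm_add_le (star v * v - star (cfc m a) * cfc m a) (star (cfc m a) * cfc m a - a)
    rw [sub_add_sub_cancel] at this
    linarith
  refine ⟨v, hv, by rwa [h4], norm_le_of_sq (by positivity) ?_⟩
  have := norm_add_le (star v * v - a) a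
  rw [sub_add_cancel] at this
  nlinarith [norm_nonneg a]

/-- Diagonalisation in a unital algebra, inside a closed two-sided ideal `A` all of whose positive
elements are properly infinite. -/
theorem diag (A : RI U) (hA : PI A) {a b : U} (ha : 0 ≤ a) (hb : 0 ≤ b) (haA : a ∈ A.s)
    (hbA : b ∈ A.s) (c : U) {ε : ℝ} (hε : 0 < ε) :
    ∃ k v l w : U, v ∈ A.s ∧ w ∈ A.s ∧ ‖star (k * v) * a * (k * v) - a‖ < ε ∧
      ‖star (l * w) * b * (l * w) - b‖ < ε ∧ ‖star (k * v) * c * (l * w)‖ < ε := by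
  have hδ : 0 < ε / 3 := by positivity
  obtain ⟨X, k, hX1, hk, hX2, hX3⟩ := side ha hδ
  obtain ⟨Y, l, hY1, -, hY2, hY3⟩ := side hb hδ
  have hXA := hX1.trans (gen_le haA)
  have hYA := hY1.trans (gen_le hbA)
  set M := (‖a‖ + 3 * (ε / 3) + 1) * (‖b‖ + 3 * (ε / 3) + 1) with hM
  have hM0 : 0 < M := by positivity
  obtain ⟨X', Y', e1, e2, e3, e4, e5⟩ := thmC (x := k * c * l) (hA.mono hXA) (hA.mono hYA) ha hb
    (t' := 2 * (ε / 3)) (s' := 2 * (ε / 3)) (η := ε / (2 * M)) (by linarith) (by linarith)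
    (by positivity) hX2 hY2
  obtain ⟨v, hv, hv1, hv2⟩ := hX3 X' e1 (hA.mono (e1.trans hXA)) e3
  obtain ⟨w, hw, hw1, hw2⟩ := hY3 Y' e2 (hA.mono (e2.trans hYA)) e4
  refine ⟨k, v, l, w, hXA (e1 hv), hYA (e2 hw), by linarith, by linarith, ?_⟩
  have e6 := e5 (Hom.id U) v hv w hw
  change ‖star v * (k * c * l) * w‖ ≤ ε / (2 * M) * ‖v‖ * ‖w‖ at e6
  have e7 : star (k * v) * c * (l * w) = star v * (k * c * l) * w := by
    rw [star_mul, hk]; noncomm_ring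
  rw [e7]
  calc _ ≤ ε / (2 * M) * ‖v‖ * ‖w‖ := e6
    _ ≤ ε / (2 * M) * (‖a‖ + 3 * (ε / 3) + 1) * (‖b‖ + 3 * (ε / 3) + 1) := by gcongr
    _ = ε / 2 := by rw [mul_assoc, ← hM]; field_simp
    _ < ε := by linarith

end Crest.Agent.R110
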