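import Mathlib

/-!
Row 110: elementary functional-calculus lemmas and the quotient of a unital C⋆-algebra by a closed
two-sided ideal.
-/

set_option autoImplicit false

namespace Crest.Agent.R110

universe u

section basic

variable {U : Type u} [CStarAlgebra U] [PartialOrder U] [StarOrderedRing U]

/-- The element `e = κ (h + κ)⁻¹`. -/
theorem exists_e {h : U} (hh : 0 ≤ h) {κ : ℝ} (hκ : 0 < κ) :
    ∃ e r : U, star e = e ∧ ‖e‖ ≤ 1 ∧ e = 1 - h * r ∧ e = 1 - r * h ∧ ‖e * h * e‖ ≤ κ := by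
  have hs : IsSelfAdjoint h := hh.isSelfAdjoint
  have hpos : ∀ t : ℝ, 0 < |t| + κ := fun t => by positivity
  obtain ⟨f, hf, c1⟩ : ∃ f : ℝ → ℝ, (∀ t, f t = κ / (|t| + κ)) ∧ Continuous f :=
    ⟨_, fun _ => rfl, continuous_const.div (by fun_prop) fun t => (hpos t).ne'⟩
  obtain ⟨g, hg, c2⟩ : ∃ g : ℝ → ℝ, (∀ t, g t = 1 / (|t| + κ)) ∧ Continuous g :=
    ⟨_, fun _ => rfl, continuous_const.div (by fun_prop) fun t => (hpos t).ne'⟩
  have key : cfc f h = cfc (fun t : ℝ => 1 - t * g t) h := by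
    refine cfc_congr fun t ht => ?_
    have h0 : 0 ≤ t := spectrum_nonneg_of_nonneg hh ht
    have := hpos t
    simp only [hf, hg, abs_of_nonneg h0] at this ⊢
    field_simp
    ring
  refine ⟨cfc f h, cfc g h, (cfc_predicate _ h : IsSelfAdjoint _), ?_, ?_, ?_, ?_⟩
  · refine norm_cfc_le zero_le_one fun t _ => ?_
    rw [hf, Real.norm_eq_abs, abs_of_pos (div_pos hκ (hpos t)), div_le_one (hpos t)]
    linarith [abs_nonneg t]
  · rw [key, cfc_sub _ _ h, cfc_const_one ℝ h, cfc_mul _ _ h, cfc_id' ℝ h]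
  · rw [key]
    simp_rw [mul_comm _ (g _)]
    rw [cfc_sub _ _ h, cfc_const_one ℝ h, cfc_mul _ _ h, cfc_id' ℝ h]
  · have : cfc f h * h * cfc f h = cfc (fun t : ℝ => f t * t * f t) h := by
      rw [cfc_mul _ _ h, cfc_mul _ _ h, cfc_id' ℝ h]
    rw [this]
    refine norm_cfc_le hκ.le fun t _ => ?_
    have h1 := hpos t
    rw [hf, Real.norm_eq_abs, abs_mul, abs_mul, abs_of_pos (div_pos hκ h1)]
    have h2 : κ / (|t| + κ) ≤ 1 := by rw [div_le_one h1]; linarith [abs_nonneg t]
    have h3 : κ / (|t| + κ) * |t| ≤ κ := by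
      rw [div_mul_eq_mul_div, div_le_iff₀ h1]; nlinarith
    calc κ / (|t| + κ) * |t| * (κ / (|t| + κ)) ≤ κ * 1 :=
          mul_le_mul h3 h2 (by positivity) hκ.le
      _ = κ := mul_one κ

omit [PartialOrder U] [StarOrderedRing U] in
theorem norm_le_of_sq {x : U} {c : ℝ} (hc : 0 ≤ c) (h : ‖star x * x‖ ≤ c ^ 2) : ‖x‖ ≤ c := by
  rw [CStarRing.norm_star_mul_self] at h
  exact abs_le_of_sq_le_sq' (by nlinarith) hc |>.2

/-- If `z z⋆ ≤ l h` then `z` is in the closure of `h U`. -/
theorem approx_of_le {z h : U} (hh : 0 ≤ h) {l : ℝ} (hl : 0 ≤ l) (hz : z * star z ≤ l • h)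
    {ε : ℝ} (hε : 0 < ε) : ∃ r : U, ‖z - h * r‖ ≤ ε := by
  obtain ⟨e, r, he, -, h1, -, h3⟩ := exists_e hh (κ := ε ^ 2 / (l + 1)) (by positivity)
  refine ⟨r * z, ?_⟩
  have h4 : z - h * (r * z) = e * z := by rw [h1]; noncomm_ring
  rw [h4, ← norm_star]
  refine norm_le_of_sq hε.le ?_
  rw [star_star, star_mul, he]
  have h5 : e * z * (star z * e) = star e * (z * star z) * e := by rw [he]; noncomm_ring
  have h6 : star e * (z * star z) * e ≤ star e * (l • h) * e := star_left_conjugate_le_conjugate hz e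
  rw [h5]
  refine (CStarAlgebra.norm_le_norm_of_nonneg_of_le
    (star_left_conjugate_nonneg (mul_star_self_nonneg z) e) h6).trans ?_
  rw [he, mul_smul_comm, smul_mul_assoc, norm_smul, Real.norm_of_nonneg hl]
  calc l * ‖e * h * e‖ ≤ (l + 1) * (ε ^ 2 / (l + 1)) :=
        mul_le_mul (by linarith) h3 (norm_nonneg _) (by linarith)
    _ = ε ^ 2 := by field_simp

theorem star_mem_ideal (I : Ideal U) [I.IsTwoSided] (hI : IsClosed (I : Set U)) {z : U}
    (hz : z ∈ I) : star z ∈ I := by
  have : star z ∈ closure (I : Set U) := by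
    rw [Metric.mem_closure_iff]
    intro ε hε
    obtain ⟨r, hr⟩ := approx_of_le (z := star z) (star_mul_self_nonneg z) zero_le_one
      (by simp) (half_pos hε)
    refine ⟨star z * z * r, I.mul_mem_right _ (I.mul_mem_left _ hz), ?_⟩
    rw [dist_eq_norm]
    linarith
  rwa [hI.closure_eq] at this

end basic

section quot

variable {U : Type u} [CStarAlgebra U] [PartialOrder U] [StarOrderedRing U]

/-- The quotient of a C⋆-algebra by a closed two-sided ideal. -/
def Qt (I : Ideal U) : Type u := U ⧸ I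

variable (I : Ideal U) [I.IsTwoSided] [hI : IsClosed (I : Set U)]

noncomputable instance : Ring (Qt I) := inferInstanceAs (Ring (U ⧸ I))

/-- The quotient map. -/
noncomputable def qmk : U →+* Qt I := Ideal.Quotient.mk I

noncomputable instance : NormedAddCommGroup (Qt I) :=
  inferInstanceAs (NormedAddCommGroup (U ⧸ I))

omit [PartialOrder U] [StarOrderedRing U] in
theorem qmk_lt (x : Qt I) {ε : ℝ} (hε : 0 < ε) : ∃ r : U, qmk I r = x ∧ ‖r‖ < ‖x‖ + ε :=
  Submodule.Quotient.norm_mk_lt (S := I) x hε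

omit [PartialOrder U] [StarOrderedRing U] in
theorem qmk_le (r : U) : ‖qmk I r‖ ≤ ‖r‖ := Submodule.Quotient.norm_mk_le (S := I) r

omit [PartialOrder U] [StarOrderedRing U] hI in
theorem qmk_eq_zero (r : U) : qmk I r = 0 ↔ r ∈ I := Ideal.Quotient.eq_zero_iff_mem

omit [PartialOrder U] [StarOrderedRing U] hI in
theorem qmk_surj : Function.Surjective (qmk I) := Ideal.Quotient.mk_surjective

omit [PartialOrder U] [StarOrderedRing U] in
theorem le_of_lifts {x : Qt I} {a c : ℝ} (hc : 0 ≤ c) (h : ∀ r : U, qmk I r = x → a ≤ c * ‖r‖) :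
    a ≤ c * ‖x‖ := by
  refine le_of_forall_pos_le_add fun ε hε => ?_
  obtain ⟨r, hr, h1⟩ := qmk_lt I x (ε := ε / (c + 1)) (by positivity)
  have h2 : c * (ε / (c + 1)) ≤ ε := by
    rw [← mul_div_assoc, div_le_iff₀ (by linarith)]; nlinarith
  have := h r hr
  nlinarith

noncomputable instance : NormedRing (Qt I) :=
  { (inferInstance : Ring (Qt I)), (inferInstance : NormedAddCommGroup (Qt I)) with
    dist_eq := fun x y => dist_eq_norm_neg_add x y
    norm_mul_le := fun x y => by
      refine le_of_lifts I (norm_nonneg x) fun b hb => ?_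
      rw [mul_comm]
      refine le_of_lifts I (norm_nonneg b) fun a ha => ?_
      rw [← ha, ← hb, ← map_mul, mul_comm ‖b‖]
      exact (qmk_le I _).trans (norm_mul_le a b) }

noncomputable instance : Algebra ℂ (Qt I) := inferInstanceAs (Algebra ℂ (U ⧸ I))

omit [PartialOrder U] [StarOrderedRing U] hI in
theorem qmk_smul (c : ℂ) (a : U) : qmk I (c • a) = c • qmk I a := rfl

noncomputable instance : NormedAlgebra ℂ (Qt I) where
  norm_smul_le c x := by
    refine le_of_lifts I (norm_nonneg c) fun a ha => ?_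
    rw [← ha, ← qmk_smul]
    exact (qmk_le I _).trans (norm_smul_le c a)

instance : CompleteSpace (Qt I) := inferInstanceAs (CompleteSpace (U ⧸ I))

noncomputable instance : Star (Qt I) where
  star := Quotient.map' star (fun a b hab => by
    rw [Submodule.quotientRel_def] at hab ⊢
    rw [← star_sub]
    exact star_mem_ideal I hI hab)

theorem star_qmk (a : U) : star (qmk I a) = qmk I (star a) := rfl

noncomputable instance : StarRing (Qt I) where
  star_involutive x := by
    obtain ⟨a, rfl⟩ := qmk_surj I x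
    rw [star_qmk, star_qmk, star_star]
  star_mul x y := by
    obtain ⟨a, rfl⟩ := qmk_surj I x
    obtain ⟨b, rfl⟩ := qmk_surj I y
    rw [← map_mul, star_qmk, star_qmk, star_qmk, ← map_mul, star_mul]
  star_add x y := by
    obtain ⟨a, rfl⟩ := qmk_surj I x
    obtain ⟨b, rfl⟩ := qmk_surj I y
    rw [← map_add, star_qmk, star_qmk, star_qmk, ← map_add, star_add]

instance : StarModule ℂ (Qt I) where
  star_smul c x := by
    obtain ⟨a, rfl⟩ := qmk_surj I x
    rw [← qmk_smul, star_qmk, star_qmk, star_smul, qmk_smul]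

instance : CStarRing (Qt I) where
  norm_mul_self_le x := by
    obtain ⟨a, rfl⟩ := qmk_surj I x
    rw [← one_mul ‖star (qmk I a) * qmk I a‖]
    refine le_of_lifts I zero_le_one fun b hb => ?_
    rw [one_mul]
    have hj : star a * a - b ∈ I := by
      rw [← qmk_eq_zero, map_sub, map_mul, hb, star_qmk, sub_self]
    set j := star a * a - b with hjdef
    refine le_of_forall_pos_le_add fun ε hε => ?_
    obtain ⟨e, r, he, he1, -, h2, h3⟩ := exists_e (star_mul_self_nonneg j) (κ := ε ^ 2)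
      (by positivity)
    have h4 : qmk I (a * e) = qmk I a := by
      rw [← sub_eq_zero, ← map_sub, qmk_eq_zero, h2]
      have : a * (1 - r * (star j * j)) - a = -(a * r * star j) * j := by noncomm_ring
      rw [this]
      exact I.mul_mem_left _ hj
    have h5 : ‖qmk I a‖ ≤ ‖a * e‖ := h4 ▸ qmk_le I _
    have h6 : ‖j * e‖ ≤ ε := by
      refine norm_le_of_sq hε.le ?_
      rw [star_mul, he]
      have : e * star j * (j * e) = e * (star j * j) * e := by noncomm_ring
      rwa [this]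
    have h7 : star (a * e) * (a * e) = e * (b * e) + e * (j * e) := by
      rw [star_mul, he, hjdef]; noncomm_ring
    have h8 : ∀ y : U, ‖e * y‖ ≤ ‖y‖ := fun y =>
      (norm_mul_le _ _).trans (by nlinarith [norm_nonneg y])
    have h9 : ‖b * e‖ ≤ ‖b‖ := (norm_mul_le _ _).trans (by nlinarith [norm_nonneg b])
    calc ‖qmk I a‖ * ‖qmk I a‖ ≤ ‖a * e‖ * ‖a * e‖ :=
          mul_le_mul h5 h5 (norm_nonneg _) (norm_nonneg _)
      _ = ‖e * (b * e) + e * (j * e)‖ := by rw [← h7, CStarRing.norm_star_mul_self]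
      _ ≤ ‖b‖ + ε := (norm_add_le _ _).trans (add_le_add ((h8 _).trans h9) ((h8 _).trans h6))

noncomputable instance : CStarAlgebra (Qt I) where

/-- The quotient map as a star algebra homomorphism. -/
noncomputable def qhom : U →⋆ₐ[ℂ] Qt I where
  toRingHom := qmk I
  commutes' _ := rfl
  map_star' _ := rfl

omit hI in
theorem exists_quot (hI : IsClosed (I : Set U)) :
    ∃ (Q : Type u) (_ : CStarAlgebra Q) (π : U →⋆ₐ[ℂ] Q), Function.Surjective π ∧
      (∀ x, π x = 0 ↔ x ∈ I) ∧ ∀ a ε, 0 < ε → ∃ j ∈ I, ‖a - j‖ < ‖π a‖ + ε := by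
  refine ⟨Qt I, inferInstance, qhom I, qmk_surj I, qmk_eq_zero I, fun a ε hε => ?_⟩
  obtain ⟨r, hr, h1⟩ := qmk_lt I (qmk I a) hε
  refine ⟨a - r, ?_, by rw [sub_sub_cancel]; exact h1⟩
  rw [← qmk_eq_zero, map_sub, hr, sub_self]

end quot

end Crest.Agent.R110
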